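import Mathlib

/-!
# Counterexample to matroid intersection from a splitting hypothesis: definitions

A row is a uniform matroid on `ℕ ⊕ ℕ` (near side, far side).  A base is recorded by the trace `P`
on the near side and the complement `Q` of its trace on the far side, both up to finite sets.
-/

namespace Vale.Agent.P068.Wild

open Set

/-- Every family of fewer than continuum many infinite sets of naturals is split by one set.
This is the cardinal equation `r = 𝔠`; it follows from the continuum hypothesis. -/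
def SplitHyp : Prop :=
  ∀ 𝓕 : Set (Set ℕ), Cardinal.mk 𝓕 < Cardinal.continuum → (∀ s ∈ 𝓕, s.Infinite) →
    ∃ C : Set ℕ, ∀ s ∈ 𝓕, (s ∩ C).Infinite ∧ (s \ C).Infinite

/-- Inclusion up to a finite set. -/
def Le {β : Type*} (s t : Set β) : Prop := (s \ t).Finite

/-- The same set up to finitely many exchanges. -/
def Eqv {β : Type*} (s t : Set β) : Prop :=
  (s \ t).Finite ∧ (t \ s).Finite ∧ (s \ t).ncard = (t \ s).ncard

/-- A family of sets is a uniform system if it is an antichain up to finite sets and decides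
every interval up to finite sets. -/
structure UniformSystem {β : Type*} (𝒞 : Set (Set β)) : Prop where
  nonempty : 𝒞.Nonempty
  antichain : ∀ C ∈ 𝒞, ∀ C' ∈ 𝒞, Le C C' → C = C'
  decided : ∀ I X : Set β, Le I X → ∃ C ∈ 𝒞, Le C I ∨ Le X C ∨ (Le I C ∧ Le C X)

/-- A matroid on all of `β` in which exchanging any element of a base for any other element
gives a base. -/
structure IsUniform {β : Type*} (W : Matroid β) : Prop where
  ground : W.E = univ
  exchange : ∀ B, W.IsBase B → ∀ x ∈ B, ∀ y ∉ B, W.IsBase (insert y (B \ {x}))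

/-- The near side is dependent and no base lies inside the far side. -/
structure IsRow (W : Matroid (ℕ ⊕ ℕ)) : Prop where
  uniform : IsUniform W
  near_dep : ¬ W.Indep (range Sum.inl)
  far_not_spanning : ∀ B, W.IsBase B → ¬ B ⊆ range Sum.inr

/-- The trace of a set on the near side. -/
def nodeP (B : Set (ℕ ⊕ ℕ)) : Set ℕ := Sum.inl ⁻¹' B

/-- The complement of the trace of a set on the far side. -/
def nodeQ (B : Set (ℕ ⊕ ℕ)) : Set ℕ := (Sum.inr ⁻¹' B)ᶜ

/-- The labelled records of bases. -/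
structure Rec (H : Type*) where
  row : ℕ
  P : Set ℕ
  Q : Set ℕ
  isT : Bool
  h : H

/-- The subset of a row described by a record. -/
def Rec.set {H : Type*} (r : Rec H) : Set (ℕ ⊕ ℕ) := Sum.inl '' r.P ∪ Sum.inr '' r.Qᶜ

/-- The invariants of the recursion: an antichain in each row, no T node below an N node on the
same edge, and ranks decreasing along successors with the same label. -/
structure Inv {H : Type*} [LT H] (S : Set (Rec H)) : Prop where
  anti : ∀ a ∈ S, ∀ b ∈ S, a.row = b.row → Le a.P b.P → Le b.Q a.Q → a = b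
  edgeP : ∀ a ∈ S, ∀ b ∈ S, a.isT = true → b.isT = false → a.row = b.row → ¬ Le a.P b.P
  edgeQ : ∀ a ∈ S, ∀ b ∈ S, a.isT = true → b.isT = false → a.row = b.row → ¬ Le a.Q b.Q
  edgeQP : ∀ a ∈ S, ∀ b ∈ S, a.isT = true → b.isT = false → a.row + 1 = b.row → ¬ Le a.Q b.P
  edgePQ : ∀ a ∈ S, ∀ b ∈ S, a.isT = true → b.isT = false → b.row + 1 = a.row → ¬ Le a.P b.Q
  rankT : ∀ a ∈ S, ∀ b ∈ S, a.isT = true → b.isT = true → a.row + 1 = b.row →
    Le a.Q b.P → b.h < a.h
  rankN : ∀ a ∈ S, ∀ b ∈ S, a.isT = false → b.isT = false → a.row + 1 = b.row →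
    Le b.P a.Q → b.h < a.h

/-- The interval between `(I₁, J₂)` and `(X₁, Y₂)` in row `k` is decided by `S`. -/
def Decided {H : Type*} (S : Set (Rec H)) (k : ℕ) (I₁ X₁ Y₂ J₂ : Set ℕ) : Prop :=
  ∃ b ∈ S, b.row = k ∧ ((Le b.P I₁ ∧ Le J₂ b.Q) ∨ (Le X₁ b.P ∧ Le b.Q Y₂) ∨
    (Le I₁ b.P ∧ Le b.P X₁ ∧ Le Y₂ b.Q ∧ Le b.Q J₂))

/-- The records of the two initial bases of every row. -/
def initRecs {H : Type*} (h₀ : H) : Set (Rec H) :=
  (range fun k => ⟨k, {n | Even n}, univ, true, h₀⟩) ∪
    range fun k => ⟨k, {n | ¬ Even n}, ∅, false, h₀⟩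

end Vale.Agent.P068.Wild
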