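import Vale.Agent.P068.Wild.Step

/-!
# The recursion of length continuum
-/

namespace Vale.Agent.P068.Wild

open Set

/-- Positions in the recursion. -/
abbrev Pos : Type := Cardinal.continuum.{0}.ord.ToType

/-- Ranks: the bottom element, or a position with a natural number. -/
abbrev Height : Type := WithBot (Pos ×ₗ ℕ)

/-- The rank number `m` at position `i`. -/
def height (i : Pos) (m : ℕ) : Height := ((toLex (i, m) : Pos ×ₗ ℕ) : Height)

lemma height_lt_of_lt {i j : Pos} (h : i < j) (m l : ℕ) : height i m < height j l :=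
  WithBot.coe_lt_coe.mpr (Prod.Lex.toLex_lt_toLex.mpr (Or.inl h))

lemma height_succ (i : Pos) {m l : ℕ} (h : m < l) : height i m < height i l :=
  WithBot.coe_lt_coe.mpr (Prod.Lex.toLex_lt_toLex.mpr (Or.inr ⟨rfl, h⟩))

lemma inv_of_pairs {H : Type*} [LinearOrder H] {S : Set (Rec H)}
    (h : ∀ a ∈ S, ∀ b ∈ S, ∃ S', Inv S' ∧ a ∈ S' ∧ b ∈ S') : Inv S := by
  constructor <;> intro a ha b hb <;> obtain ⟨S', hS', ha', hb'⟩ := h a ha b hb
  · exact hS'.anti a ha' b hb'
  · exact hS'.edgeP a ha' b hb'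
  · exact hS'.edgeQ a ha' b hb'
  · exact hS'.edgeQP a ha' b hb'
  · exact hS'.edgePQ a ha' b hb'
  · exact hS'.rankT a ha' b hb'
  · exact hS'.rankN a ha' b hb'

lemma not_le_of_forall {s t : Set ℕ} (f : ℕ → ℕ) (hf : f.Injective) (h : ∀ n, f n ∈ s \ t) :
    ¬ Le s t :=
  infinite_of_injective_forall_mem hf h

lemma evens_facts :
    ¬ Le {n : ℕ | Even n} {n | ¬ Even n} ∧ ¬ Le {n : ℕ | ¬ Even n} {n | Even n} ∧
      ¬ Le {n : ℕ | Even n} (∅ : Set ℕ) ∧ ¬ Le (univ : Set ℕ) {n | ¬ Even n} ∧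
      ¬ Le (univ : Set ℕ) ∅ ∧ ¬ Le (univ : Set ℕ) {n | Even n} ∧
      ¬ Le {n : ℕ | ¬ Even n} (∅ : Set ℕ) := by
  have he : ∀ n : ℕ, Even (2 * n) := fun n => even_two_mul n
  have ho : ∀ n : ℕ, ¬ Even (2 * n + 1) := fun n => by simp
  have i₂ : Function.Injective fun n : ℕ => 2 * n := fun a b h => by simp only at h; omega
  have i₃ : Function.Injective fun n : ℕ => 2 * n + 1 := fun a b h => by simp only at h; omega
  exact ⟨not_le_of_forall _ i₂ fun n => ⟨he n, not_not.mpr (he n)⟩,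
    not_le_of_forall _ i₃ fun n => ⟨ho n, ho n⟩,
    not_le_of_forall _ i₂ fun n => ⟨he n, id⟩,
    not_le_of_forall _ i₂ fun n => ⟨mem_univ _, not_not.mpr (he n)⟩,
    not_le_of_forall _ i₂ fun _ => ⟨mem_univ _, id⟩,
    not_le_of_forall _ i₃ fun n => ⟨mem_univ _, ho n⟩,
    not_le_of_forall _ i₃ fun n => ⟨ho n, id⟩⟩

lemma inv_init {H : Type*} [LinearOrder H] (h₀ : H) : Inv (initRecs h₀) := by
  obtain ⟨e₁, e₂, e₃, e₄, e₅, e₆, e₇⟩ := evens_facts
  constructor <;> rintro a (⟨i, rfl⟩ | ⟨i, rfl⟩) b (⟨j, rfl⟩ | ⟨j, rfl⟩) <;> intros <;>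
    simp only [Bool.false_eq_true, Bool.true_eq_false, Rec.mk.injEq] at * <;>
    first
      | omega
      | contradiction
      | simp_all

lemma nodes_init_finite {H : Type*} [LinearOrder H] (h₀ : H) :
    (nodes (initRecs h₀)).Finite := by
  refine (toFinite ({{n | Even n}, {n | ¬ Even n}, univ, ∅} : Set (Set ℕ))).subset ?_
  rintro _ (⟨_, (⟨k, rfl⟩ | ⟨k, rfl⟩), rfl⟩ | ⟨_, (⟨k, rfl⟩ | ⟨k, rfl⟩), rfl⟩) <;> simp

lemma small_init {H : Type*} [LinearOrder H] (h₀ : H) : Small (initRecs h₀) :=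
  ((nodes_init_finite h₀).lt_aleph0).trans_le Cardinal.aleph0_le_continuum

lemma good_init {H : Type*} [LinearOrder H] (h₀ : H) : Good (initRecs h₀) where
  inv := inv_init h₀
  small := small_init h₀
  hasT k := ⟨_, Or.inl ⟨k, rfl⟩, rfl, rfl⟩
  hasN k := ⟨_, Or.inr ⟨k, rfl⟩, rfl, rfl⟩

/-- A task: a row and the four sets describing an interval. -/
abbrev Task : Type := ℕ × (Set ℕ × Set ℕ) × (Set ℕ × Set ℕ)

lemma exists_surjective_task : ∃ e : Pos → Task, Function.Surjective e := by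
  have h : Cardinal.mk Task ≤ Cardinal.mk Pos := by simp [Task, Pos, Cardinal.aleph0_le_continuum]
  obtain ⟨f⟩ := Cardinal.le_def _ _ |>.mp h
  have : Nonempty Task := ⟨0, (∅, ∅), (∅, ∅)⟩
  exact ⟨Function.invFun f, Function.invFun_surjective f.injective⟩

/-- The task at a position. -/
noncomputable def task : Pos → Task := exists_surjective_task.choose

/-- What one stage has to achieve. -/
def StageSpec (i : Pos) (S S' : Set (Rec Height)) : Prop :=
  S ⊆ S' ∧ (S' \ S).Finite ∧ Good S' ∧ (∀ b ∈ S', b.h ≤ height i 2) ∧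
    (Le (task i).2.1.1 (task i).2.1.2 → Le (task i).2.2.1 (task i).2.2.2 →
      Decided S' (task i).1 (task i).2.1.1 (task i).2.1.2 (task i).2.2.1 (task i).2.2.2)

open Classical in
/-- One stage. -/
noncomputable def stageStep (i : Pos) (S : Set (Rec Height)) : Set (Rec Height) :=
  if h : ∃ S', StageSpec i S S' then h.choose else S

/-- The records after the stage at `i`. -/
noncomputable def full : Pos → Set (Rec Height) :=
  WellFoundedLT.fix fun i rec =>
    stageStep i (initRecs ⊥ ∪ ⋃ (j : Pos) (h : j < i), rec j h)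

/-- The records before the stage at `i`. -/
noncomputable def pre (i : Pos) : Set (Rec Height) :=
  initRecs ⊥ ∪ ⋃ (j : Pos) (_ : j < i), full j

lemma full_eq (i : Pos) : full i = stageStep i (pre i) :=
  WellFoundedLT.fix_eq _ i

lemma mem_pre {i : Pos} {b : Rec Height} :
    b ∈ pre i ↔ b ∈ initRecs ⊥ ∨ ∃ j, j < i ∧ b ∈ full j := by
  simp [pre]

lemma stageSpec_full (hSp : SplitHyp) (i : Pos) : StageSpec i (pre i) (full i) := by
  induction i using WellFoundedLT.induction with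
  | _ i ih =>
    have hmono : ∀ {j l : Pos}, j < l → l < i → full j ⊆ full l := fun hjl hli b hb =>
      (ih _ hli).1 (mem_pre.mpr (Or.inr ⟨_, hjl, hb⟩))
    have hinit : ∀ {j : Pos}, j < i → initRecs ⊥ ⊆ full j := fun hj b hb =>
      (ih _ hj).1 (mem_pre.mpr (Or.inl hb))
    have hinv : Inv (pre i) := by
      refine inv_of_pairs fun a ha b hb => ?_
      rcases mem_pre.mp ha with ha | ⟨j, hj, ha⟩ <;> rcases mem_pre.mp hb with hb | ⟨l, hl, hb⟩
      · exact ⟨_, inv_init ⊥, ha, hb⟩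
      · exact ⟨_, (ih l hl).2.2.1.inv, hinit hl ha, hb⟩
      · exact ⟨_, (ih j hj).2.2.1.inv, ha, hinit hj hb⟩
      · rcases lt_trichotomy j l with h | rfl | h
        · exact ⟨_, (ih l hl).2.2.1.inv, hmono h hl ha, hb⟩
        · exact ⟨_, (ih j hj).2.2.1.inv, ha, hb⟩
        · exact ⟨_, (ih j hj).2.2.1.inv, ha, hmono h hj hb⟩
    have hsub : pre i ⊆ initRecs ⊥ ∪ ⋃ j ∈ Iio i, (full j \ pre j) := by
      intro b hb
      rcases mem_pre.mp hb with hb | hb
      · exact Or.inl hb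
      · obtain ⟨j, ⟨hj, hbj⟩, hmin⟩ := wellFounded_lt.has_min {j | j < i ∧ b ∈ full j} hb
        by_cases hbi : b ∈ initRecs (⊥ : Height)
        · exact Or.inl hbi
        refine Or.inr (mem_biUnion (x := j) hj ⟨hbj, fun h => ?_⟩)
        obtain ⟨l, hl, hbl⟩ := (mem_pre.mp h).resolve_left hbi
        exact hmin l ⟨hl.trans hj, hbl⟩ hl
    have hsmall : Small (pre i) := by
      have hn : nodes (pre i) ⊆
          nodes (initRecs (⊥ : Height)) ∪ ⋃ j ∈ Iio i, nodes (full j \ pre j) := by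
        intro n hn
        obtain ⟨b, hb, h⟩ : ∃ b ∈ pre i, n = b.P ∨ n = b.Q := by
          rcases hn with ⟨b, hb, rfl⟩ | ⟨b, hb, rfl⟩ <;> exact ⟨b, hb, by simp⟩
        have mem : ∀ {T : Set (Rec Height)}, b ∈ T → n ∈ nodes T := fun hT => by
          rcases h with rfl | rfl
          · exact Or.inl ⟨b, hT, rfl⟩
          · exact Or.inr ⟨b, hT, rfl⟩
        rcases hsub hb with hb | hb
        · exact Or.inl (mem hb)
        · simp only [mem_iUnion] at hb
          obtain ⟨j, hj, hb⟩ := hb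
          exact Or.inr (mem_biUnion hj (mem hb))
      refine (Cardinal.mk_le_mk_of_subset hn).trans_lt ((Cardinal.mk_union_le _ _).trans_lt
        (Cardinal.add_lt_of_lt Cardinal.aleph0_le_continuum (small_init ⊥) ?_))
      refine (Cardinal.mk_biUnion_le _ _).trans_lt ?_
      refine (mul_le_mul_right (ciSup_le' (a := Cardinal.aleph0.{0}) fun j => ?_) _).trans_lt
        (Cardinal.mul_lt_of_lt Cardinal.aleph0_le_continuum (Cardinal.mk_Iio_toType_ord_lt i)
          Cardinal.aleph0_lt_continuum)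
      exact (((ih j.1 j.2).2.1.image Rec.P).union
        ((ih j.1 j.2).2.1.image Rec.Q)).lt_aleph0.le
    have hgood : Good (pre i) :=
      ⟨hinv, hsmall,
        fun k => let ⟨b, hb, h⟩ := (good_init (⊥ : Height)).hasT k
          ⟨b, mem_pre.mpr (Or.inl hb), h⟩,
        fun k => let ⟨b, hb, h⟩ := (good_init (⊥ : Height)).hasN k
          ⟨b, mem_pre.mpr (Or.inl hb), h⟩⟩
    have htop : ∀ b ∈ pre i, b.h < height i 0 := by
      intro b hb
      rcases mem_pre.mp hb with (⟨k, rfl⟩ | ⟨k, rfl⟩) | ⟨j, hj, hb⟩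
      · exact WithBot.bot_lt_coe _
      · exact WithBot.bot_lt_coe _
      · exact ((ih j hj).2.2.2.1 b hb).trans_lt (height_lt_of_lt hj _ _)
    have hex : ∃ S', StageSpec i (pre i) S' := by
      by_cases hI : Le (task i).2.1.1 (task i).2.1.2 ∧ Le (task i).2.2.1 (task i).2.2.2
      · obtain ⟨S', h₁, h₂, h₃, h₄, h₅⟩ := exists_step hSp hgood (task i).1 hI.1 hI.2
          (height_succ i zero_lt_one) (height_succ i one_lt_two) htop
        exact ⟨S', h₁, h₂, h₃, h₄, fun _ _ => h₅⟩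
      · exact ⟨pre i, subset_rfl, by simp, hgood,
          fun b hb => ((htop b hb).trans (height_succ i two_pos)).le,
          fun h₁ h₂ => absurd ⟨h₁, h₂⟩ hI⟩
    rw [full_eq, stageStep, dif_pos hex]
    exact hex.choose_spec

/-- The final system of records. -/
theorem exists_family (hSp : SplitHyp) :
    ∃ S : Set (Rec Height), Inv S ∧ initRecs ⊥ ⊆ S ∧
      ∀ k I₁ X₁ Y₂ J₂, Le I₁ X₁ → Le Y₂ J₂ → Decided S k I₁ X₁ Y₂ J₂ := by
  have hs := stageSpec_full hSp
  refine ⟨initRecs ⊥ ∪ ⋃ i, full i, inv_of_pairs fun a ha b hb => ?_, subset_union_left,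
    fun k I₁ X₁ Y₂ J₂ h₁ h₂ => ?_⟩
  · have hi : ∀ i, initRecs ⊥ ⊆ full i := fun i c hc => (hs i).1 (mem_pre.mpr (Or.inl hc))
    have hm : ∀ {j l}, j < l → full j ⊆ full l := fun {j l} h c hc =>
      (hs l).1 (mem_pre.mpr (Or.inr ⟨j, h, hc⟩))
    simp only [mem_union, mem_iUnion] at ha hb
    rcases ha with ha | ⟨j, ha⟩ <;> rcases hb with hb | ⟨l, hb⟩
    · exact ⟨_, inv_init ⊥, ha, hb⟩
    · exact ⟨_, (hs l).2.2.1.inv, hi l ha, hb⟩
    · exact ⟨_, (hs j).2.2.1.inv, ha, hi j hb⟩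
    · rcases lt_trichotomy j l with h | rfl | h
      · exact ⟨_, (hs l).2.2.1.inv, hm h ha, hb⟩
      · exact ⟨_, (hs j).2.2.1.inv, ha, hb⟩
      · exact ⟨_, (hs j).2.2.1.inv, ha, hm h hb⟩
  · obtain ⟨i, hi⟩ := exists_surjective_task.choose_spec (k, (I₁, X₁), (Y₂, J₂))
    have hi : task i = (k, (I₁, X₁), (Y₂, J₂)) := hi
    have h := (hs i).2.2.2.2
    rw [hi] at h
    obtain ⟨b, hb, h'⟩ := h h₁ h₂
    exact ⟨b, Or.inr (mem_iUnion.mpr ⟨i, hb⟩), h'⟩

end Vale.Agent.P068.Wild
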