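import Vale.Agent.P068.Basic

/-!
# Packing/covering partitions give intersection

A packing/covering partition of the pair `(M, N✶)` gives intersection for `(M, N)`, so a pair
without intersection also refutes the packing/covering conjecture.
-/

namespace Vale.Agent.P068.Wild

open Set
open scoped Matroid

variable {α ι : Type*}

/-- The family `M` of matroids on `E` has a packing/covering partition: `E` is the disjoint union
of `P` and `C`, there are pairwise disjoint `S i ⊆ P` spanning the restriction of `M i` to `P`,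
and sets `I i ⊆ C` with union `C`, independent in the contraction `((M i)✶ ↾ C)✶` onto `C`. -/
def HasPackingCovering (E : Set α) (M : ι → Matroid α) : Prop :=
  ∃ P C : Set α, Disjoint P C ∧ P ∪ C = E ∧ ∃ S I : ι → Set α,
    (∀ i, S i ⊆ P) ∧ (∀ i j, i ≠ j → Disjoint (S i) (S j)) ∧
    (∀ i, (M i ↾ P).closure (S i) = P) ∧
    (∀ i, I i ⊆ C) ∧ (∀ i, ((M i)✶ ↾ C)✶.Indep (I i)) ∧ ⋃ i, I i = C

/-- A packing/covering partition of `(M, N✶)` gives intersection for `(M, N)`. -/
theorem intersection_of_packingCovering {M N : Matroid α} (hE : M.E = N.E)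
    (h : HasPackingCovering M.E (fun b : Bool => bif b then M else N✶)) :
    SatisfiesIntersection M N := by
  obtain ⟨P, C, hdis, hPC, S, I, hSP, hSd, hS, hIC, hI, hIu⟩ := h
  have hPE : P ⊆ M.E := hPC ▸ subset_union_left
  have hCE : C ⊆ M.E := hPC ▸ subset_union_right
  have hC : M.E \ P = C := by rw [← hPC, union_sdiff_left, hdis.sdiff_eq_right]
  have hP : M.E \ C = P := by rw [← hPC, union_sdiff_right, hdis.sdiff_eq_left]
  -- a base of `M` on `P` and a base of `N✶` on `P`, both inside the packing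
  obtain ⟨B₁, hB₁, hB₁S⟩ : ∃ B, M.IsBasis B P ∧ B ⊆ S true := by
    obtain ⟨B, hB, hBS⟩ := ((Matroid.spanning_iff_closure_eq (M := M ↾ P) (hSP true)).2
      (hS true)).exists_isBase_subset
    exact ⟨B, (Matroid.isBase_restrict_iff hPE).1 hB, hBS⟩
  obtain ⟨B₂, hB₂, hB₂S⟩ : ∃ B, (N✶ ↾ P).IsBase B ∧ B ⊆ S false :=
    ((Matroid.spanning_iff_closure_eq (M := N✶ ↾ P) (hSP false)).2
      (hS false)).exists_isBase_subset
  -- a base of `N` on `C` avoiding the second covering set
  obtain ⟨B, hB, hIB⟩ := (hI false).exists_isBase_superset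
  simp only [cond_false, Matroid.dual_dual, Matroid.dual_isBase_iff',
    Matroid.restrict_ground_eq] at hB
  have hJ : N.IsBasis (C \ B) C := (Matroid.isBase_restrict_iff (hE ▸ hCE)).1 hB.1
  have hJI : C \ B ⊆ I true := fun x hx => by
    obtain ⟨b, hb⟩ := mem_iUnion.1 (hIu.symm ▸ hx.1 : x ∈ ⋃ i, I i)
    cases b
    · exact absurd (hIB hb) hx.2
    · exact hb
  have eM : (M✶ ↾ C)✶ = M ／ P := by
    rw [← Matroid.delete_compl (M := M✶) hCE, Matroid.dual_ground, hP]
    rfl
  have eN : (N✶ ↾ P)✶ = N ／ C := by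
    rw [← Matroid.delete_compl (M := N✶) (hE ▸ hPE), Matroid.dual_ground, ← hE, hC]
    rfl
  refine ⟨B₁, C \ B, disjoint_of_subset hB₁.subset sdiff_subset hdis, ?_, ?_, ?_⟩
  · have h1 := hI true
    simp only [cond_true, eM] at h1
    rw [union_comm]
    exact (hB₁.contract_indep_iff.1 (h1.subset hJI)).1
  · have h2 : (N ／ C).Indep B₁ := by
      rw [← eN]
      refine Matroid.IsBase.indep ?_ |>.subset
        (show B₁ ⊆ P \ B₂ from fun x hx => ⟨hB₁.subset hx, fun hx2 =>
          disjoint_left.1 (hSd true false (by decide)) (hB₁S hx) (hB₂S hx2)⟩)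
      exact hB₂.compl_isBase_dual
    exact (hJ.contract_indep_iff.1 h2).1
  · refine subset_antisymm (union_subset (M.closure_subset_ground _)
      (hE ▸ N.closure_subset_ground _)) ?_
    rw [← hPC]
    exact union_subset_union hB₁.subset_closure hJ.subset_closure

end Vale.Agent.P068.Wild
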