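import Vale.Agent.P068.Wild.Defs

/-!
# Uniform matroids from uniform systems

An antichain of sets modulo finite exchanges which decides every interval gives a matroid in which
every exchange between a base element and an outside element is again a base.
-/

namespace Vale.Agent.P068.Wild

open Set
open scoped Matroid

variable {β : Type*}

/-- The difference of the numbers of elements added and removed. -/
private noncomputable def sh (s t : Set β) : ℤ := ((s \ t).ncard : ℤ) - (t \ s).ncard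

private lemma le_rfl' {s : Set β} : Le s s := by simp [Le]

private lemma le_of_subset {s t : Set β} (h : s ⊆ t) : Le s t := by
  simp [Le, sdiff_eq_empty.2 h]

private lemma Le.trans' {s t u : Set β} (h : Le s t) (h' : Le t u) : Le s u :=
  (Set.Finite.union h h').subset fun x hx =>
    (em (x ∈ t)).elim (fun ht => .inr ⟨ht, hx.2⟩) fun ht => .inl ⟨hx.1, ht⟩

private lemma sh_window {s t F : Set β} (hF : F.Finite) (hst : s \ t ⊆ F) (hts : t \ s ⊆ F) :
    sh s t = ((s ∩ F).ncard : ℤ) - (t ∩ F).ncard := by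
  have e1 : (s ∩ F) \ t = s \ t := by
    ext x; exact ⟨fun h => ⟨h.1.1, h.2⟩, fun h => ⟨⟨h.1, hst h⟩, h.2⟩⟩
  have e2 : (t ∩ F) \ s = t \ s := by
    ext x; exact ⟨fun h => ⟨h.1.1, h.2⟩, fun h => ⟨⟨h.1, hts h⟩, h.2⟩⟩
  have e3 : (s ∩ F) ∩ t = (t ∩ F) ∩ s := by ext x; simp only [mem_inter_iff]; tauto
  have h1 := ncard_inter_add_ncard_sdiff_eq_ncard (s ∩ F) t (hF.subset inter_subset_right)
  have h2 := ncard_inter_add_ncard_sdiff_eq_ncard (t ∩ F) s (hF.subset inter_subset_right)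
  rw [e1, e3] at h1
  rw [e2] at h2
  simp only [sh]
  omega

private lemma sh_add {S C D : Set β} (h1 : Le S C) (h2 : Le C S) (hD : D.Finite)
    (hd : Disjoint D S) : sh (S ∪ D) C = sh S C + D.ncard := by
  set F := (S \ C) ∪ (C \ S) ∪ D with hFdef
  have hF : F.Finite := ((Set.Finite.union h1 h2).union hD)
  have a : S \ C ⊆ F := fun x hx => .inl (.inl hx)
  have b : C \ S ⊆ F := fun x hx => .inl (.inr hx)
  have a' : (S ∪ D) \ C ⊆ F := fun x hx =>
    hx.1.elim (fun h => a ⟨h, hx.2⟩) fun h => .inr h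
  have b' : C \ (S ∪ D) ⊆ F := fun x hx => b ⟨hx.1, fun h => hx.2 (.inl h)⟩
  rw [sh_window hF a' b', sh_window hF a b]
  have e : (S ∪ D) ∩ F = (S ∩ F) ∪ D := by
    rw [union_inter_distrib_right, inter_eq_left.2 (subset_union_right : D ⊆ F)]
  rw [e, ncard_union_eq (hd.symm.mono_left inter_subset_left) (hF.subset inter_subset_right) hD]
  push_cast
  ring

private lemma Eqv.refl' (s : Set β) : Eqv s s := by simp [Eqv]

private lemma Eqv.le {s t : Set β} (h : Eqv s t) : Le s t := h.1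

private lemma Eqv.ge {s t : Set β} (h : Eqv s t) : Le t s := h.2.1

private lemma Eqv.symm' {s t : Set β} (h : Eqv s t) : Eqv t s := ⟨h.2.1, h.1, h.2.2.symm⟩

private lemma eqv_of_sh {s t : Set β} (h1 : Le s t) (h2 : Le t s) (h : sh s t = 0) : Eqv s t :=
  ⟨h1, h2, by simp only [sh] at h; omega⟩

private lemma Eqv.sh_eq {s t : Set β} (h : Eqv s t) : sh s t = 0 := by
  simp [sh, h.2.2]

private lemma Eqv.trans' {s t u : Set β} (h : Eqv s t) (h' : Eqv t u) : Eqv s u := by
  refine eqv_of_sh (h.le.trans' h'.le) (h'.ge.trans' h.ge) ?_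
  set F := (s \ t) ∪ (t \ s) ∪ ((t \ u) ∪ (u \ t)) with hFdef
  have hF : F.Finite := (h.1.union h.2.1).union (h'.1.union h'.2.1)
  have e1 := sh_window hF (s := s) (t := t) (fun x hx => .inl (.inl hx)) fun x hx => .inl (.inr hx)
  have e2 := sh_window hF (s := t) (t := u) (fun x hx => .inr (.inl hx)) fun x hx => .inr (.inr hx)
  have e3 := sh_window hF (s := s) (t := u)
    (fun x hx => (em (x ∈ t)).elim (fun ht => .inr (.inl ⟨ht, hx.2⟩))
      fun ht => .inl (.inl ⟨hx.1, ht⟩))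
    (fun x hx => (em (x ∈ t)).elim (fun ht => .inl (.inr ⟨ht, hx.2⟩))
      fun ht => .inr (.inr ⟨hx.1, ht⟩))
  rw [h.sh_eq] at e1
  rw [h'.sh_eq] at e2
  omega

private lemma exists_subset_card {s : Set β} {k : ℕ} (h : s.Infinite ∨ k ≤ s.ncard) :
    ∃ D ⊆ s, D.Finite ∧ D.ncard = k := by
  rcases eq_or_ne k 0 with rfl | hk
  · exact ⟨∅, empty_subset _, finite_empty, ncard_empty _⟩
  obtain ⟨D, hD, hc⟩ : ∃ D ⊆ s, D.ncard = k := by
    rcases h with h | h
    · obtain ⟨D, hD, -, hc⟩ := h.exists_subset_ncard_eq k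
      exact ⟨D, hD, hc⟩
    · exact exists_subset_card_eq h
  exact ⟨D, hD, finite_of_ncard_pos (by omega), hc⟩

variable {𝒞 : Set (Set β)}

/-- Being equivalent to a member of the family. -/
private def Base (𝒞 : Set (Set β)) (B : Set β) : Prop := ∃ C ∈ 𝒞, Eqv B C

private lemma Base.exchange {B : Set β} (hB : Base 𝒞 B) {x y : β} (hx : x ∈ B) (hy : y ∉ B) :
    Base 𝒞 (insert y (B \ {x})) := by
  obtain ⟨C, hC, h⟩ := hB
  refine ⟨C, hC, Eqv.trans' ?_ h⟩
  have hxy : y ≠ x := fun e => hy (e ▸ hx)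
  have e1 : insert y (B \ {x}) \ B = {y} := by
    ext z; simp only [mem_sdiff, mem_insert_iff, mem_singleton_iff]
    constructor
    · rintro ⟨h1 | h1, h2⟩
      · exact h1
      · exact absurd h1.1 h2
    · rintro rfl; exact ⟨.inl rfl, hy⟩
  have e2 : B \ insert y (B \ {x}) = {x} := by
    ext z; simp only [mem_sdiff, mem_insert_iff, mem_singleton_iff]
    constructor
    · rintro ⟨h1, h2⟩
      by_contra hz
      exact h2 (.inr ⟨h1, hz⟩)
    · rintro rfl; exact ⟨hx, fun h => h.elim (fun e => hxy e.symm) fun h => h.2 rfl⟩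
  exact ⟨by rw [e1]; exact finite_singleton y, by rw [e2]; exact finite_singleton x,
    by rw [e1, e2, ncard_singleton, ncard_singleton]⟩

private lemma Base.eq_of_subset (h : UniformSystem 𝒞) {B B' : Set β} (hB : Base 𝒞 B)
    (hB' : Base 𝒞 B') (hs : B ⊆ B') : B = B' := by
  obtain ⟨C, hC, e⟩ := hB
  obtain ⟨C', hC', e'⟩ := hB'
  obtain rfl := h.antichain C hC C' hC' (e.ge.trans' ((le_of_subset hs).trans' e'.le))
  obtain ⟨-, hf, hc⟩ := e.trans' e'.symm'
  rw [sdiff_eq_empty.2 hs, ncard_empty, eq_comm, ncard_eq_zero hf, sdiff_eq_empty] at hc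
  exact hs.antisymm hc

private lemma indep_or_between (h : UniformSystem 𝒞) {I X C : Set β} (hC : C ∈ 𝒞) (hIX : I ⊆ X)
    (hI : ∃ B, Base 𝒞 B ∧ I ⊆ B) (hIC : Le I C) (hCX : Le C X) :
    (∃ B, Base 𝒞 B ∧ X ⊆ B) ∨ ∃ B, Base 𝒞 B ∧ I ⊆ B ∧ B ⊆ X := by
  set S := I ∪ C ∩ X with hS
  have hSC : Le S C := hIC.subset fun x hx => hx.1.elim (fun h => ⟨h, hx.2⟩)
    fun h => absurd h.1 hx.2
  have hCS : Le C S := hCX.subset fun x hx => ⟨hx.1, fun h => hx.2 (.inr ⟨hx.1, h⟩)⟩
  have hIS : I ⊆ S := subset_union_left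
  have hSX : S ⊆ X := union_subset hIX inter_subset_right
  rcases le_or_gt (sh S C) 0 with hd | hd
  · set k := (-sh S C).toNat with hk
    by_cases hX : (X \ S).Infinite ∨ k ≤ (X \ S).ncard
    · obtain ⟨D, hD, hDf, hDc⟩ := exists_subset_card hX
      have hdis : Disjoint D S := disjoint_left.2 fun x hx => (hD hx).2
      refine .inr ⟨S ∪ D, ⟨C, hC, eqv_of_sh ?_ (hCS.trans' (le_of_subset subset_union_left)) ?_⟩,
        hIS.trans subset_union_left, union_subset hSX (hD.trans sdiff_subset)⟩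
      · exact (Set.Finite.union hSC hDf).subset fun x hx =>
          hx.1.elim (fun h => .inl ⟨h, hx.2⟩) fun h => .inr h
      · rw [sh_add hSC hCS hDf hdis]; omega
    · rw [not_or, not_infinite, not_le] at hX
      obtain ⟨hXf, hXk⟩ := hX
      obtain ⟨D, hD, hDf, hDc⟩ := exists_subset_card (s := C \ S) (k := k - (X \ S).ncard)
        (.inr (by simp only [sh] at hk hd; omega))
      have hdd : Disjoint (X \ S) D :=
        disjoint_left.2 fun x hx hxD => hx.2 (.inr ⟨(hD hxD).1, hx.1⟩)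
      have hdis : Disjoint (X \ S ∪ D) S :=
        disjoint_left.2 fun x hx => hx.elim (fun h => h.2) fun h => (hD h).2
      refine .inl ⟨S ∪ (X \ S ∪ D),
        ⟨C, hC, eqv_of_sh ?_ (hCS.trans' (le_of_subset subset_union_left)) ?_⟩, fun x hx =>
          (em (x ∈ S)).elim .inl fun hn => .inr (.inl ⟨hx, hn⟩)⟩
      · exact (Set.Finite.union hSC (hXf.union hDf)).subset fun x hx =>
          hx.1.elim (fun h => .inl ⟨h, hx.2⟩) fun h => .inr h
      · rw [sh_add hSC hCS (hXf.union hDf) hdis, ncard_union_eq hdd hXf hDf]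
        omega
  · set k := (sh S C).toNat with hk
    by_cases hX : (S \ I).Infinite ∨ k ≤ (S \ I).ncard
    · obtain ⟨D, hD, hDf, hDc⟩ := exists_subset_card hX
      have h1 : Le (S \ D) C := (le_of_subset sdiff_subset).trans' hSC
      have h2 : Le C (S \ D) := (Set.Finite.union hCS hDf).subset fun x hx =>
        (em (x ∈ S)).elim (fun hs => .inr (by_contra fun hn => hx.2 ⟨hs, hn⟩))
          fun hs => .inl ⟨hx.1, hs⟩
      have e := sh_add h1 h2 hDf (disjoint_left.2 fun x hx hx' => hx'.2 hx)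
      rw [sdiff_union_self, union_eq_left.2 (hD.trans sdiff_subset)] at e
      refine .inr ⟨S \ D, ⟨C, hC, eqv_of_sh h1 h2 (by omega)⟩,
        fun x hx => ⟨hIS hx, fun hxD => (hD hxD).2 hx⟩, sdiff_subset.trans hSX⟩
    · rw [not_or, not_infinite, not_le] at hX
      obtain ⟨hf, hlt⟩ := hX
      have hCI : Le C I := hCS.trans' hf
      have e := sh_add hIC hCI hf disjoint_sdiff_left
      rw [union_sdiff_cancel hIS] at e
      obtain ⟨B, ⟨C', hC', eB⟩, hIB⟩ := hI
      obtain rfl := h.antichain C hC C' hC' (hCI.trans' ((le_of_subset hIB).trans' eB.le))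
      have hBI : (B \ I).Finite := eB.le.trans' hCI
      have e' := sh_add hIC hCI hBI disjoint_sdiff_left
      rw [union_sdiff_cancel hIB, eB.sh_eq] at e'
      omega

private lemma maximality (h : UniformSystem 𝒞) {I X : Set β} (hI : ∃ B, Base 𝒞 B ∧ I ⊆ B)
    (hIX : I ⊆ X) :
    ∃ J, I ⊆ J ∧ Maximal (fun K => (∃ B, Base 𝒞 B ∧ K ⊆ B) ∧ K ⊆ X) J := by
  by_cases hX : ∃ B, Base 𝒞 B ∧ X ⊆ B
  · exact ⟨X, hIX, ⟨hX, Subset.rfl⟩, fun K hK _ => hK.2⟩
  obtain ⟨B₀, ⟨C₀, hC₀, e₀⟩, hIB₀⟩ := id hI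
  obtain ⟨C, hC, hd⟩ := h.decided I X (le_of_subset hIX)
  obtain ⟨hIC, hCX⟩ : Le I C ∧ Le C X := by
    rcases hd with hd | hd | hd
    · obtain rfl := h.antichain C hC C₀ hC₀ (hd.trans' ((le_of_subset hIB₀).trans' e₀.le))
      exact ⟨(le_of_subset hIB₀).trans' e₀.le, hd.trans' (le_of_subset hIX)⟩
    · refine ⟨(le_of_subset hIX).trans' hd, ?_⟩
      by_contra hn
      obtain ⟨D, hD, hDf, hDc⟩ := exists_subset_card (k := (X \ C).ncard)
        (show (C \ X).Infinite ∨ _ from .inl hn)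
      have h1 : Le ((X ∪ C) \ D) C :=
        hd.subset fun x hx => ⟨hx.1.1.resolve_right hx.2, hx.2⟩
      have h2 : Le C ((X ∪ C) \ D) := hDf.subset fun x hx =>
        by_contra fun hxD => hx.2 ⟨.inr hx.1, hxD⟩
      have e := sh_add h1 h2 hDf (disjoint_left.2 fun x hx hx' => hx'.2 hx)
      rw [sdiff_union_self, union_eq_left.2 ((hD.trans sdiff_subset).trans subset_union_right)] at e
      have e2 : sh (X ∪ C) C = (X \ C).ncard := by
        simp [sh, sdiff_eq_empty.2 (subset_union_right : C ⊆ X ∪ C)]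
      exact hX ⟨(X ∪ C) \ D, ⟨C, hC, eqv_of_sh h1 h2 (by omega)⟩,
        fun x hx => ⟨.inl hx, fun hxD => (hD hxD).2 hx⟩⟩
    · exact hd
  obtain h' | ⟨B, hB, hIB, hBX⟩ := indep_or_between h hC hIX hI hIC hCX
  · exact absurd h' hX
  · refine ⟨B, hIB, ⟨⟨B, hB, Subset.rfl⟩, hBX⟩, ?_⟩
    rintro K ⟨⟨B', hB', hKB'⟩, -⟩ hBK
    exact hKB'.trans (hB.eq_of_subset h hB' (hBK.trans hKB')).ge

/-- **Uniform matroids from uniform systems.** -/
theorem exists_matroid {β : Type*} {𝒞 : Set (Set β)} (h : UniformSystem 𝒞) :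
    ∃ W : Matroid β, IsUniform W ∧ ∀ B, W.IsBase B ↔ ∃ C ∈ 𝒞, Eqv B C := by
  refine ⟨{
    E := univ
    IsBase := Base 𝒞
    Indep := fun I => ∃ B, Base 𝒞 B ∧ I ⊆ B
    indep_iff' := fun I => Iff.rfl
    exists_isBase := let ⟨C, hC⟩ := h.nonempty; ⟨C, C, hC, Eqv.refl' C⟩
    isBase_exchange := fun B B' hB hB' a ha => by
      obtain ⟨b, hb⟩ : (B' \ B).Nonempty := nonempty_iff_ne_empty.2 fun he =>
        ha.2 ((hB'.eq_of_subset h hB (sdiff_eq_empty.1 he)) ▸ ha.1)
      exact ⟨b, hb, hB.exchange ha.1 hb.2⟩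
    maximality := fun X _ I hI hIX => maximality h hI hIX
    subset_ground := fun B _ => subset_univ B }, ⟨rfl, fun B hB x hx y hy => ?_⟩, fun B => Iff.rfl⟩
  exact Base.exchange hB hx hy

/-- Duals of uniform matroids are uniform. -/
theorem IsUniform.dual {W : Matroid β} (h : IsUniform W) : IsUniform W✶ := by
  refine ⟨h.ground, fun B hB x hx y hy => ?_⟩
  have hB' : W.IsBase (univ \ B) := h.ground ▸ (Matroid.dual_isBase_iff'.1 hB).1
  refine Matroid.dual_isBase_iff'.2 ⟨?_, h.ground ▸ subset_univ _⟩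
  rw [h.ground]
  have := h.exchange _ hB' y ⟨mem_univ y, hy⟩ x fun hx' => hx'.2 hx
  convert this using 1
  ext z
  simp only [mem_sdiff, mem_univ, true_and, mem_insert_iff, mem_singleton_iff]
  rcases eq_or_ne z x with rfl | hzx
  · have : z ≠ y := fun e => hy (e ▸ hx)
    simp [this]
  · simp [hzx, and_comm]

/-- In a uniform matroid an independent set which is not a base extends by every element. -/
theorem IsUniform.insert_indep {W : Matroid β} (h : IsUniform W) {I : Set β} (hI : W.Indep I)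
    (hI' : ¬ W.IsBase I) (e : β) : W.Indep (insert e I) := by
  obtain ⟨B, hB, hIB⟩ := hI.exists_isBase_superset
  by_cases he : e ∈ B
  · exact hB.indep.subset (insert_subset he hIB)
  obtain ⟨x, hxB, hxI⟩ : ∃ x ∈ B, x ∉ I := by
    by_contra hn
    push Not at hn
    exact hI' (hIB.antisymm hn ▸ hB)
  exact (h.exchange B hB x hxB e he).indep.subset
    (insert_subset_insert fun z hz => ⟨hIB hz, fun hzx => hxI (hzx ▸ hz)⟩)

/-- In a uniform matroid an independent set which is not a base is closed. -/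
theorem IsUniform.closure_eq {W : Matroid β} (h : IsUniform W) {I : Set β} (hI : W.Indep I)
    (hI' : ¬ W.IsBase I) : W.closure I = I := by
  refine subset_antisymm (fun e he => by_contra fun hn => ?_)
    (W.subset_closure I hI.subset_ground)
  exact (hI.notMem_closure_iff (h.ground ▸ mem_univ e)).2 ⟨h.insert_indep hI hI' e, hn⟩ he

end Vale.Agent.P068.Wild
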