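import Vale.Agent.P068.Wild.Defs
import Vale.Agent.P068.Wild.Uniform
import Vale.Agent.P068.Basic

/-!
# The two matroids, and chains of bases from intersection

`M` is the sum of the rows and their duals, `N` the partition matroid of pairs joining the far side
of a row with the near side of the next one; the near sides of the two first rows are joined.
-/

namespace Vale.Agent.P068.Wild

open Set
open scoped Matroid

/-- The points: a side, a row number and a point of the row. -/
abbrev Pt : Type := (Bool × ℕ) × (ℕ ⊕ ℕ)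

/-- The sum of all rows and their duals. -/
def bigM (W : ℕ → Matroid (ℕ ⊕ ℕ)) : Matroid Pt :=
  Matroid.sum' fun r : Bool × ℕ => if r.1 then (W r.2)✶ else W r.2

/-- The pair of a point. -/
def pairMap : Pt → Option (Bool × ℕ) × ℕ
  | ((_, 0), .inl n) => (none, n)
  | ((s, k + 1), .inl n) => (some (s, k), n)
  | ((s, k), .inr n) => (some (s, k), n)

/-- The partition matroid of the pairs. -/
def pairN : Matroid Pt := (Matroid.freeOn univ).comap pairMap

lemma pairN_ground : pairN.E = univ := by simp [pairN]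

lemma bigM_ground {W : ℕ → Matroid (ℕ ⊕ ℕ)} (hW : ∀ k, IsRow (W k)) : (bigM W).E = univ := by
  refine eq_univ_of_forall fun e => ?_
  obtain ⟨⟨_ | _, k⟩, x⟩ := e <;> simp [bigM, (hW k).uniform.ground]

lemma ground_eq {W : ℕ → Matroid (ℕ ⊕ ℕ)} (hW : ∀ k, IsRow (W k)) : (bigM W).E = pairN.E :=
  (bigM_ground hW).trans pairN_ground.symm

/-- The dual of a row is a row. -/
theorem IsRow.dual {W : Matroid (ℕ ⊕ ℕ)} (h : IsRow W) : IsRow W✶ := by
  refine ⟨h.uniform.dual, fun hi => ?_, fun B hB hs => ?_⟩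
  · obtain ⟨-, B, hB, hd⟩ := Matroid.dual_indep_iff_exists'.1 hi
    refine h.far_not_spanning B hB fun x hx => ?_
    cases x with
    | inl n => exact absurd hx (disjoint_left.1 hd (mem_range_self n))
    | inr n => exact mem_range_self n
  · refine h.near_dep ((Matroid.dual_isBase_iff'.1 hB).1.indep.subset ?_)
    rintro _ ⟨n, rfl⟩
    refine ⟨h.uniform.ground.symm ▸ mem_univ _, fun hn => ?_⟩
    obtain ⟨m, hm⟩ := hs hn
    exact Sum.inr_ne_inl hm

/-- An edge between two neighbouring sides. -/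
private lemma pairMap_eq {e e' : Pt} (h : pairMap e' = pairMap e) :
    e' = e ∨ (∃ s n, e.1 = (s, 0) ∧ e.2 = .inl n ∧ e' = ((!s, 0), .inl n)) ∨
      (∃ s k n, e = ((s, k + 1), .inl n) ∧ e' = ((s, k), .inr n)) ∨
      ∃ s k n, e = ((s, k), .inr n) ∧ e' = ((s, k + 1), .inl n) := by
  obtain ⟨⟨s, k⟩, x⟩ := e
  obtain ⟨⟨s', k'⟩, x'⟩ := e'
  rcases x with n | n <;> rcases x' with n' | n' <;> cases k <;> cases k' <;>
    simp_all [pairMap]
  all_goals (cases s <;> cases s' <;> simp)

private lemma chains_aux {W : Bool × ℕ → Matroid (ℕ ⊕ ℕ)} (hW : ∀ r, IsRow (W r))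
    (h : SatisfiesIntersection (Matroid.sum' W) pairN) :
    ∃ B : Bool × ℕ → Set (ℕ ⊕ ℕ), (∀ r, (W r).IsBase (B r)) ∧
      ((∀ s k n, ¬(Sum.inr n ∈ B (s, k) ∧ Sum.inl n ∈ B (s, k + 1))) ∧
          (∀ n, ¬(Sum.inl n ∈ B (false, 0) ∧ Sum.inl n ∈ B (true, 0))) ∨
        (∀ s k n, Sum.inr n ∈ B (s, k) ∨ Sum.inl n ∈ B (s, k + 1)) ∧
          ∀ n, Sum.inl n ∈ B (false, 0) ∨ Sum.inl n ∈ B (true, 0)) := by
  obtain ⟨J₁, J₂, hdis, hM, hN, hcl⟩ := h
  rw [pairN, Matroid.comap_indep_iff] at hN
  have hinj : InjOn pairMap (J₁ ∪ J₂) := hN.2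
  set J : Bool × ℕ → Set (ℕ ⊕ ℕ) := fun r => Prod.mk r ⁻¹' (J₁ ∪ J₂) with hJdef
  set A : Bool × ℕ → Set (ℕ ⊕ ℕ) := fun r => Prod.mk r ⁻¹' J₁ with hAdef
  have hJ : ∀ r, (W r).Indep (J r) := Matroid.sum'_indep_iff.1 hM
  have hA : (Matroid.sum' W).Indep J₁ := hM.subset subset_union_left
  -- a point outside `J` of a row which is not spanned has its partner in `J₂`
  have key : ∀ r, ¬ (W r).IsBase (A r) → ∀ x, x ∉ J r →
      ∃ e' ∈ J₂, pairMap e' = pairMap (r, x) ∧ e' ≠ (r, x) := by
    intro r hr x hx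
    have hE : (r, x) ∈ (Matroid.sum' W).E := by simp [(hW r).uniform.ground]
    rw [← hcl] at hE
    rcases hE with hE | hE
    · refine absurd hE ((hA.notMem_closure_iff (by simp [(hW r).uniform.ground])).2
        ⟨Matroid.sum'_indep_iff.2 fun i => ?_, fun h1 => hx (Or.inl h1)⟩)
      rcases eq_or_ne i r with rfl | hi
      · have : Prod.mk i ⁻¹' insert (i, x) J₁ = insert x (A i) := by ext y; simp [A]
        rw [this]
        exact (hW i).uniform.insert_indep (Matroid.sum'_indep_iff.1 hA i) hr x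
      · have : Prod.mk i ⁻¹' insert (r, x) J₁ = Prod.mk i ⁻¹' J₁ := by ext y; simp [hi]
        rw [this]
        exact Matroid.sum'_indep_iff.1 hA i
    · rw [pairN, Matroid.comap_closure_eq, Matroid.freeOn_closure_eq, inter_univ] at hE
      obtain ⟨e', he', heq⟩ := hE
      exact ⟨e', he', heq, fun he => hx (Or.inr (he ▸ he'))⟩
  -- the second part avoids spanned rows
  have hJA : ∀ r, (W r).IsBase (A r) → ∀ x, (r, x) ∈ J₁ ∪ J₂ → (r, x) ∈ J₁ := by
    intro r hr x hx
    have e := hr.eq_of_subset_indep (hJ r) fun y hy => Or.inl hy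
    exact (Set.ext_iff.1 e x).2 hx
  have hT : ∀ r x, (W r).IsBase (A r) → (r, x) ∉ J₂ := fun r x hr hx =>
    disjoint_left.1 hdis (hJA r hr x (Or.inr hx)) hx
  -- near sides: `e'` of a spanned row leaves the near side of an unspanned row independent
  have same0 : ∀ s, (W (s, 0)).IsBase (A (s, 0)) → (W (!s, 0)).IsBase (A (!s, 0)) := by
    intro s hs
    by_contra hn
    refine (hW (!s, 0)).near_dep ((hJ (!s, 0)).subset ?_)
    rintro _ ⟨n, rfl⟩
    by_contra hx
    obtain ⟨e', he', heq, hne⟩ := key _ hn _ hx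
    rcases pairMap_eq heq with h | ⟨s', m, h1, h2, h3⟩ | ⟨s', k, m, h1, -⟩ | ⟨s', k, m, h1, -⟩
    · exact hne h
    · simp only [Prod.mk.injEq, Sum.inl.injEq, and_true] at h1 h2
      subst h1 h2 h3
      exact hT _ _ (by simpa using hs) he'
    · simp at h1
    · simp at h1
  have same : ∀ s k, (W (s, k)).IsBase (A (s, k)) ↔ (W (s, k + 1)).IsBase (A (s, k + 1)) := by
    intro s k
    constructor
    · intro hs
      by_contra hn
      refine (hW (s, k + 1)).near_dep ((hJ (s, k + 1)).subset ?_)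
      rintro _ ⟨n, rfl⟩
      by_contra hx
      obtain ⟨e', he', heq, hne⟩ := key _ hn _ hx
      rcases pairMap_eq heq with h | ⟨s', m, h1, -, -⟩ | ⟨s', k', m, h1, h2⟩ | ⟨s', k', m, h1, -⟩
      · exact hne h
      · simp at h1
      · simp only [Prod.mk.injEq, add_left_inj, Sum.inl.injEq] at h1
        obtain ⟨⟨rfl, rfl⟩, rfl⟩ := h1
        subst h2
        exact hT _ _ hs he'
      · simp at h1
    · intro hs
      by_contra hn
      have hfar : ∀ n, ((s, k), Sum.inr n) ∈ J₁ ∪ J₂ := by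
        intro n
        by_contra hx
        obtain ⟨e', he', heq, hne⟩ := key _ hn _ hx
        rcases pairMap_eq heq with h | ⟨s', m, -, h2, -⟩ | ⟨s', k', m, h1, -⟩ | ⟨s', k', m, h1, h2⟩
        · exact hne h
        · simp at h2
        · simp at h1
        · simp only [Prod.mk.injEq, Sum.inr.injEq] at h1
          obtain ⟨⟨rfl, rfl⟩, rfl⟩ := h1
          subst h2
          exact hT _ _ hs he'
      refine (hW (s, k + 1)).far_not_spanning _ hs fun x hx => ?_
      cases x with
      | inl n =>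
        have := hinj (hfar n) (Or.inl hx) (by simp [pairMap])
        simp at this
      | inr n => exact mem_range_self n
  have all : ∀ r, (W r).IsBase (A r) ↔ (W (false, 0)).IsBase (A (false, 0)) := by
    rintro ⟨s, k⟩
    induction k with
    | zero =>
      cases s with
      | false => rfl
      | true => exact ⟨fun h => same0 true h, fun h => same0 false h⟩
    | succ k ih => exact (same s k).symm.trans ih
  by_cases h0 : (W (false, 0)).IsBase (A (false, 0))
  · refine ⟨A, fun r => (all r).2 h0, Or.inl ⟨fun s k n h => ?_, fun n h => ?_⟩⟩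
    · have := hinj (Or.inl h.1 : _ ∈ J₁ ∪ J₂) (Or.inl h.2) (by simp [pairMap])
      simp at this
    · have := hinj (Or.inl h.1 : _ ∈ J₁ ∪ J₂) (Or.inl h.2) (by simp [pairMap])
      simp at this
  · choose B hB hsub using fun r => (hJ r).exists_isBase_superset
    refine ⟨B, hB, Or.inr ⟨fun s k n => ?_, fun n => ?_⟩⟩
    · by_cases hx : Sum.inr n ∈ J (s, k)
      · exact Or.inl (hsub _ hx)
      obtain ⟨e', he', heq, hne⟩ := key _ (fun h => h0 ((all _).1 h)) _ hx
      rcases pairMap_eq heq with h | ⟨s', m, -, h2, -⟩ | ⟨s', k', m, h1, -⟩ | ⟨s', k', m, h1, h2⟩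
      · exact absurd h hne
      · simp at h2
      · simp at h1
      · simp only [Prod.mk.injEq, Sum.inr.injEq] at h1
        obtain ⟨⟨rfl, rfl⟩, rfl⟩ := h1
        subst h2
        exact Or.inr (hsub _ (Or.inr he'))
    · by_cases hx : Sum.inl n ∈ J (false, 0)
      · exact Or.inl (hsub _ hx)
      obtain ⟨e', he', heq, hne⟩ := key _ (fun h => h0 ((all _).1 h)) _ hx
      rcases pairMap_eq heq with h | ⟨s', m, h1, h2, h3⟩ | ⟨s', k', m, h1, -⟩ | ⟨s', k', m, h1, -⟩
      · exact absurd h hne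
      · simp only [Prod.mk.injEq, and_true, Sum.inl.injEq] at h1 h2
        subst h1 h2 h3
        exact Or.inr (hsub _ (Or.inr he'))
      · simp at h1
      · simp at h1

/-- **Chains of bases.** Intersection yields a descending and an ascending chain of bases whose
first members are comparable. -/
theorem exists_chains {W : ℕ → Matroid (ℕ ⊕ ℕ)} (hW : ∀ k, IsRow (W k))
    (h : SatisfiesIntersection (bigM W) pairN) :
    ∃ d a : ℕ → Set (ℕ ⊕ ℕ), (∀ k, (W k).IsBase (d k)) ∧ (∀ k, (W k).IsBase (a k)) ∧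
      (∀ k, nodeP (d (k + 1)) ⊆ nodeQ (d k)) ∧ (∀ k, nodeQ (a k) ⊆ nodeP (a (k + 1))) ∧
      nodeP (d 0) ⊆ nodeP (a 0) := by
  have hW' : ∀ r : Bool × ℕ, IsRow (if r.1 then (W r.2)✶ else W r.2) := by
    rintro ⟨_ | _, k⟩
    exacts [hW k, (hW k).dual]
  obtain ⟨B, hB, hcase⟩ := chains_aux hW' h
  have hf : ∀ k, (W k).IsBase (B (false, k)) := fun k => by simpa using hB (false, k)
  have ht : ∀ k, (W k).IsBase (B (true, k))ᶜ := fun k => by
    have := (hB (true, k)).compl_isBase_dual
    simpa [(hW k).uniform.ground, ← compl_eq_univ_sdiff] using this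
  rcases hcase with ⟨h1, h2⟩ | ⟨h1, h2⟩
  · refine ⟨fun k => B (false, k), fun k => (B (true, k))ᶜ, hf, ht, fun k n hn hn' => ?_,
      fun k n hn => fun hn' => ?_, fun n hn hn' => ?_⟩
    · exact h1 false k n ⟨hn', hn⟩
    · exact h1 true k n ⟨not_not.1 hn, hn'⟩
    · exact h2 n ⟨hn, hn'⟩
  · refine ⟨fun k => (B (true, k))ᶜ, fun k => B (false, k), ht, hf, fun k n hn hn' => ?_,
      fun k n hn => ?_, fun n hn => ?_⟩
    · exact (h1 true k n).elim hn' hn
    · exact (h1 false k n).resolve_left hn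
    · exact (h2 n).resolve_right hn

end Vale.Agent.P068.Wild
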