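import Vale.Agent.P068.Wild.Family
import Vale.Agent.P068.Wild.Uniform
import Vale.Agent.P068.Wild.Space

/-!
# The chains that intersection would give do not exist
-/

namespace Vale.Agent.P068.Wild

open Set

lemma le_sum_iff {A B : Set (ℕ ⊕ ℕ)} :
    Le A B ↔ Le (Sum.inl ⁻¹' A) (Sum.inl ⁻¹' B) ∧ Le (Sum.inr ⁻¹' A) (Sum.inr ⁻¹' B) := by
  refine ⟨fun (h : (A \ B).Finite) => ⟨h.preimage (f := Sum.inl) Sum.inl_injective.injOn,
      h.preimage (f := Sum.inr) Sum.inr_injective.injOn⟩,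
    fun ⟨h₁, h₂⟩ => ((h₁.image Sum.inl).union (h₂.image Sum.inr)).subset ?_⟩
  rintro (x | x) hx
  · exact Or.inl ⟨x, hx, rfl⟩
  · exact Or.inr ⟨x, hx, rfl⟩

@[simp] lemma Rec.preimage_inl {H : Type*} (r : Rec H) : Sum.inl ⁻¹' r.set = r.P := by
  ext x; simp [Rec.set]

@[simp] lemma Rec.preimage_inr {H : Type*} (r : Rec H) : Sum.inr ⁻¹' r.set = r.Qᶜ := by
  ext x; simp [Rec.set]

variable {H : Type*} [LinearOrder H] {S : Set (Rec H)}

/-- The base classes of a row. -/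
def rowSystem (S : Set (Rec H)) (k : ℕ) : Set (Set (ℕ ⊕ ℕ)) :=
  Rec.set '' {b ∈ S | b.row = k}

lemma uniformSystem_row (hI : Inv S) {h₀ : H} (h0 : initRecs h₀ ⊆ S)
    (hD : ∀ k I₁ X₁ Y₂ J₂, Le I₁ X₁ → Le Y₂ J₂ → Decided S k I₁ X₁ Y₂ J₂) (k : ℕ) :
    UniformSystem (rowSystem S k) where
  nonempty := ⟨_, _, ⟨h0 (Or.inl ⟨k, rfl⟩), rfl⟩, rfl⟩
  antichain := by
    rintro _ ⟨a, ⟨ha, hra⟩, rfl⟩ _ ⟨b, ⟨hb, hrb⟩, rfl⟩ h
    obtain ⟨h₁, h₂⟩ := le_sum_iff.mp h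
    simp only [Rec.preimage_inl, Rec.preimage_inr, le_compl_iff] at h₁ h₂
    rw [hI.anti a ha b hb (hra.trans hrb.symm) h₁ h₂]
  decided := by
    intro I X hIX
    obtain ⟨h₁, h₂⟩ := le_sum_iff.mp hIX
    obtain ⟨b, hb, hr, hc⟩ := hD k _ _ (Sum.inr ⁻¹' X)ᶜ (Sum.inr ⁻¹' I)ᶜ h₁ h₂.compl
    refine ⟨b.set, ⟨b, ⟨hb, hr⟩, rfl⟩, ?_⟩
    simp only [le_sum_iff, Rec.preimage_inl, Rec.preimage_inr]
    rcases hc with ⟨h₁, h₂⟩ | ⟨h₁, h₂⟩ | ⟨h₁, h₂, h₃, h₄⟩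
    · exact Or.inl ⟨h₁, by simpa using h₂.compl⟩
    · exact Or.inr (Or.inl ⟨h₁, by simpa using h₂.compl⟩)
    · exact Or.inr (Or.inr ⟨⟨h₁, by simpa using h₄.compl⟩, h₂, by simpa using h₃.compl⟩)

omit [LinearOrder H] in
lemma node_of_eqv {B : Set (ℕ ⊕ ℕ)} {r : Rec H} (h : Eqv B r.set) :
    Le (nodeP B) r.P ∧ Le r.P (nodeP B) ∧ Le (nodeQ B) r.Q ∧ Le r.Q (nodeQ B) := by
  obtain ⟨h₁, h₂, -⟩ := h
  obtain ⟨a₁, a₂⟩ := le_sum_iff.mp (h₁ : Le B r.set)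
  obtain ⟨b₁, b₂⟩ := le_sum_iff.mp (h₂ : Le r.set B)
  simp only [Rec.preimage_inl, Rec.preimage_inr] at a₁ a₂ b₁ b₂
  exact ⟨a₁, b₁, by simpa [nodeQ] using b₂.compl, by simpa [nodeQ] using a₂.compl⟩

lemma isRow_of_system (hI : Inv S) {h₀ : H} (h0 : initRecs h₀ ⊆ S) {k : ℕ}
    {W : Matroid (ℕ ⊕ ℕ)} (hW : IsUniform W)
    (hB : ∀ B, W.IsBase B ↔ ∃ C ∈ rowSystem S k, Eqv B C) : IsRow W where
  uniform := hW
  near_dep := by
    intro h
    obtain ⟨B, hBb, hBs⟩ := h.exists_isBase_superset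
    obtain ⟨_, ⟨b, ⟨hb, hr⟩, rfl⟩, he⟩ := (hB B).mp hBb
    have hP : Le univ b.P :=
      (le_of_subset fun x _ => hBs ⟨x, rfl⟩ : Le univ (nodeP B)).trans (node_of_eqv he).1
    have := hI.anti _ (h0 (Or.inl ⟨k, rfl⟩)) b hb hr.symm ((le_univ _).trans hP) (le_univ _)
    subst this
    exact evens_facts.2.2.2.2.2.1 hP
  far_not_spanning := by
    intro B hBb hBs
    obtain ⟨_, ⟨b, ⟨hb, hr⟩, rfl⟩, he⟩ := (hB B).mp hBb
    have hP : Le b.P ∅ := (node_of_eqv he).2.1.trans <| le_of_subset fun x hx => by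
      obtain ⟨y, hy⟩ := hBs hx
      simp at hy
    have := hI.anti b hb _ (h0 (Or.inr ⟨k, rfl⟩)) hr (hP.trans (empty_le _)) (empty_le _)
    subst this
    exact evens_facts.2.2.2.2.2.2 hP

lemma no_chains [WellFoundedLT H] (hI : Inv S) {D A : ℕ → Rec H}
    (hD : ∀ k, D k ∈ S ∧ (D k).row = k) (hA : ∀ k, A k ∈ S ∧ (A k).row = k)
    (dd : ∀ k, Le (D (k + 1)).P (D k).Q) (aa : ∀ k, Le (A k).Q (A (k + 1)).P)
    (h0 : Le (D 0).P (A 0).P) : False := by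
  have rD : ∀ k, (D k).row + 1 = (D (k + 1)).row := fun k => by rw [(hD k).2, (hD (k + 1)).2]
  have rA : ∀ k, (A k).row + 1 = (A (k + 1)).row := fun k => by rw [(hA k).2, (hA (k + 1)).2]
  have hA0 : (A 0).isT = false := by
    by_contra h
    rw [Bool.not_eq_false] at h
    have hT : ∀ k, (A k).isT = true := fun k => by
      induction k with
      | zero => exact h
      | succ k ih =>
        by_contra hn
        rw [Bool.not_eq_true] at hn
        exact hI.edgeQP _ (hA k).1 _ (hA (k + 1)).1 ih hn (rA k) (aa k)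
    exact not_strictAnti_of_wellFoundedLT (fun k => (A k).h) (strictAnti_nat_of_succ_lt fun k =>
      hI.rankT _ (hA k).1 _ (hA (k + 1)).1 (hT k) (hT (k + 1)) (rA k) (aa k))
  have hD0 : (D 0).isT = true := by
    by_contra h
    rw [Bool.not_eq_true] at h
    have hN : ∀ k, (D k).isT = false := fun k => by
      induction k with
      | zero => exact h
      | succ k ih =>
        by_contra hn
        rw [Bool.not_eq_false] at hn
        exact hI.edgePQ _ (hD (k + 1)).1 _ (hD k).1 hn ih (rD k) (dd k)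
    exact not_strictAnti_of_wellFoundedLT (fun k => (D k).h) (strictAnti_nat_of_succ_lt fun k =>
      hI.rankN _ (hD k).1 _ (hD (k + 1)).1 (hN k) (hN (k + 1)) (rD k) (dd k))
  exact hI.edgeP _ (hD 0).1 _ (hA 0).1 hD0 hA0 ((hD 0).2.trans (hA 0).2.symm) h0

/-- Under the splitting hypothesis some rows give a pair violating intersection. -/
theorem exists_counterexample (hSp : SplitHyp) :
    ∃ W : ℕ → Matroid (ℕ ⊕ ℕ), (∀ k, IsRow (W k)) ∧
      ¬ SatisfiesIntersection (bigM W) pairN := by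
  obtain ⟨S, hI, h0, hdec⟩ := exists_family hSp
  choose W hW hB using fun k => exists_matroid (uniformSystem_row hI h0 hdec k)
  have hrow : ∀ k, IsRow (W k) := fun k => isRow_of_system hI h0 (hW k) (hB k)
  refine ⟨W, hrow, fun h => ?_⟩
  obtain ⟨d, a, hd, ha, hdd, haa, hda⟩ := exists_chains hrow h
  have pick : ∀ b : ℕ → Set (ℕ ⊕ ℕ), (∀ k, (W k).IsBase (b k)) →
      ∀ k, ∃ r : Rec Height, (r ∈ S ∧ r.row = k) ∧ Eqv (b k) r.set := fun b hb k => by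
    obtain ⟨_, ⟨r, hr, rfl⟩, he⟩ := (hB k _).mp (hb k)
    exact ⟨r, hr, he⟩
  choose D hD heD using pick d hd
  choose A hA heA using pick a ha
  refine no_chains hI hD hA (fun k => ?_) (fun k => ?_) ?_
  · exact ((node_of_eqv (heD (k + 1))).2.1.trans (le_of_subset (hdd k))).trans
      (node_of_eqv (heD k)).2.2.1
  · exact ((node_of_eqv (heA k)).2.2.2.trans (le_of_subset (haa k))).trans
      (node_of_eqv (heA (k + 1))).1
  · exact ((node_of_eqv (heD 0)).2.1.trans (le_of_subset hda)).trans (node_of_eqv (heA 0)).1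

end Vale.Agent.P068.Wild
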