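import Vale.Agent.P068.Wild.Defs

/-!
# Inclusion up to finite sets, generic sets, and the splitting hypothesis under CH
-/

namespace Vale.Agent.P068.Wild

open Set

variable {β : Type*} {s t u : Set β}

lemma Le.refl (s : Set β) : Le s s := by simp [Le]

lemma le_of_subset (h : s ⊆ t) : Le s t := by simp [Le, sdiff_eq_bot_iff.mpr h]

lemma Le.trans (h₁ : Le s t) (h₂ : Le t u) : Le s u :=
  (h₁.union h₂).subset fun x ⟨hx, hxu⟩ => by
    by_cases hxt : x ∈ t
    · exact Or.inr ⟨hxt, hxu⟩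
    · exact Or.inl ⟨hx, hxt⟩

lemma Le.compl (h : Le s t) : Le tᶜ sᶜ :=
  h.subset fun x ⟨hx, hx'⟩ => ⟨not_not.mp hx', hx⟩

lemma le_compl_iff : Le sᶜ tᶜ ↔ Le t s :=
  ⟨fun h => by simpa using h.compl, Le.compl⟩

lemma empty_le (s : Set β) : Le ∅ s := le_of_subset (empty_subset s)

lemma le_univ (s : Set β) : Le s univ := le_of_subset (subset_univ s)

/-- A set lies between `lo` and `hi` that is comparable with a member of a small family only
when `lo` or `hi` forces this. -/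
theorem exists_generic (hS : SplitHyp) {lo hi : Set ℕ} (hle : Le lo hi) (F : Set (Set ℕ))
    (hF : Cardinal.mk F < Cardinal.continuum) :
    ∃ C, Le lo C ∧ Le C hi ∧ (∀ f ∈ F, Le f C → Le f lo) ∧
      ∀ f ∈ F, Le C f → Le hi f := by
  let D := hi \ lo
  let 𝓕 : Set (Set ℕ) := {s | s.Infinite ∧ s ∈ (fun f => f ∩ D) '' F ∪ (fun f => D \ f) '' F}
  have h𝓕 : Cardinal.mk 𝓕 < Cardinal.continuum := by
    refine lt_of_le_of_lt ((Cardinal.mk_le_mk_of_subset
      (fun s (hs : s ∈ 𝓕) => hs.2)).trans (Cardinal.mk_union_le _ _)) ?_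
    exact Cardinal.add_lt_of_lt Cardinal.aleph0_le_continuum
      (Cardinal.mk_image_le.trans_lt hF) (Cardinal.mk_image_le.trans_lt hF)
  obtain ⟨C₀, hC₀⟩ := hS 𝓕 h𝓕 fun s hs => hs.1
  have hhi : Le (lo ∪ D ∩ C₀) hi := hle.subset fun x ⟨hx, hx'⟩ =>
    hx.elim (fun h => ⟨h, hx'⟩) (fun h => absurd h.1.1 hx')
  refine ⟨lo ∪ D ∩ C₀, le_of_subset subset_union_left, hhi, fun f hf h => ?_, fun f hf h => ?_⟩
  · by_contra hn
    have hinf : (f ∩ D).Infinite := fun hfin => hn <| (hfin.union (h.trans hhi)).subset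
      fun x ⟨hx, hxlo⟩ => by
        by_cases hxh : x ∈ hi
        · exact Or.inl ⟨hx, hxh, hxlo⟩
        · exact Or.inr ⟨hx, hxh⟩
    refine (hC₀ _ ⟨hinf, Or.inl ⟨f, hf, rfl⟩⟩).2 (h.subset ?_)
    rintro x ⟨⟨hxf, hxD⟩, hxC⟩
    exact ⟨hxf, fun hx => hx.elim hxD.2 fun h => hxC h.2⟩
  · by_contra hn
    have hinf : (D \ f).Infinite := fun hfin => hn <| (hfin.union h).subset
      fun x ⟨hx, hxf⟩ => by
        by_cases hxl : x ∈ lo
        · exact Or.inr ⟨Or.inl hxl, hxf⟩
        · exact Or.inl ⟨⟨hx, hxl⟩, hxf⟩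
    refine (hC₀ _ ⟨hinf, Or.inr ⟨f, hf, rfl⟩⟩).1 (h.subset ?_)
    rintro x ⟨⟨hxD, hxf⟩, hxC⟩
    exact ⟨Or.inr ⟨hxD, hxC⟩, hxf⟩

/-- A countable family of infinite sets of naturals is split by one set. -/
theorem exists_split_countable (𝓕 : Set (Set ℕ)) (hc : 𝓕.Countable)
    (hi : ∀ s ∈ 𝓕, s.Infinite) :
    ∃ C : Set ℕ, ∀ s ∈ 𝓕, (s ∩ C).Infinite ∧ (s \ C).Infinite := by
  obtain rfl | hne := 𝓕.eq_empty_or_nonempty
  · exact ⟨∅, by simp⟩
  obtain ⟨f, rfl⟩ := hc.exists_eq_range hne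
  have hf : ∀ i, (f i).Infinite := fun i => hi _ ⟨i, rfl⟩
  let g : ℕ → Set ℕ := fun m => f (Nat.unpair (m / 2)).1
  have hg : ∀ m x, ∃ y ∈ g m, x < y := fun m x => (hf _).exists_gt x
  choose pick hpick hlt using hg
  obtain ⟨c, hc_mem, hmono⟩ : ∃ c : ℕ → ℕ, (∀ m, c m ∈ g m) ∧ StrictMono c :=
    ⟨fun m => Nat.rec (pick 0 0) (fun j x => pick (j + 1) x) m,
      fun m => by cases m <;> exact hpick _ _, strictMono_nat_of_lt_succ fun m => hlt _ _⟩
  refine ⟨range fun n => c (2 * n), ?_⟩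
  rintro _ ⟨i, rfl⟩
  have hinj : Function.Injective fun j => Nat.pair i j := fun a b h =>
    (Nat.pair_eq_pair.mp h).2
  constructor
  · refine infinite_of_injective_forall_mem (f := fun j => c (2 * Nat.pair i j)) ?_ fun j => ?_
    · intro a b h
      simp only at h
      exact hinj (by have := hmono.injective h; simp only; omega)
    · have h := hc_mem (2 * Nat.pair i j)
      simp [g] at h
      exact ⟨h, Nat.pair i j, rfl⟩
  · refine infinite_of_injective_forall_mem (f := fun j => c (2 * Nat.pair i j + 1)) ?_ fun j => ?_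
    · intro a b h
      simp only at h
      exact hinj (by have := hmono.injective h; simp only; omega)
    · have h := hc_mem (2 * Nat.pair i j + 1)
      have e : (2 * Nat.pair i j + 1) / 2 = Nat.pair i j := by omega
      simp [g, e] at h
      refine ⟨h, ?_⟩
      rintro ⟨n, hn⟩
      simp only at hn
      have := hmono.injective hn
      omega

/-- The continuum hypothesis implies the splitting hypothesis. -/
theorem splitHyp_of_ch (hCH : Cardinal.continuum.{0} = Cardinal.aleph 1) : SplitHyp := by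
  intro 𝓕 hlt hi
  refine exists_split_countable 𝓕 (Cardinal.mk_le_aleph0_iff.mp ?_) hi
  rw [hCH, ← Cardinal.succ_aleph0, Order.lt_succ_iff] at hlt
  exact hlt

end Vale.Agent.P068.Wild
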