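import Vale.Agent.P068.Wild.Split

/-!
# One step of the recursion

A new base is either given a rank above all ranks so far, when it has no predecessor with its own
label, or it copies label and rank of an old base whose successors and predecessors contain its own.
-/

namespace Vale.Agent.P068.Wild

open Set

variable {H : Type*} [LinearOrder H] {S : Set (Rec H)}

set_option linter.unusedSectionVars false

/-- The record of the complement, with the other label. -/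
def Rec.dual (r : Rec H) : Rec H := ⟨r.row, r.Pᶜ, r.Qᶜ, !r.isT, r.h⟩

lemma Rec.dual_dual (r : Rec H) : r.dual.dual = r := by
  cases r; simp [Rec.dual]

lemma dual_image_image (S : Set (Rec H)) : Rec.dual '' (Rec.dual '' S) = S := by
  simp [image_image, Rec.dual_dual]

lemma Inv.dual (hI : Inv S) : Inv (Rec.dual '' S) := by
  constructor <;> rintro _ ⟨a, ha, rfl⟩ _ ⟨b, hb, rfl⟩ <;>
    simp only [Rec.dual, Bool.not_eq_true', Bool.not_eq_false', le_compl_iff]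
  · intro hr h₁ h₂
    rw [hI.anti b hb a ha hr.symm h₁ h₂]
  · exact fun h₁ h₂ hr => hI.edgeP b hb a ha h₂ h₁ hr.symm
  · exact fun h₁ h₂ hr => hI.edgeQ b hb a ha h₂ h₁ hr.symm
  · exact fun h₁ h₂ hr => hI.edgePQ b hb a ha h₂ h₁ hr
  · exact fun h₁ h₂ hr => hI.edgeQP b hb a ha h₂ h₁ hr
  · exact fun h₁ h₂ hr h => hI.rankN a ha b hb h₁ h₂ hr h
  · exact fun h₁ h₂ hr h => hI.rankT a ha b hb h₁ h₂ hr h

/-- The nodes with label `l` on edge `k`. -/
def Node (S : Set (Rec H)) (l : Bool) (k : ℕ) (n : Set ℕ) : Prop :=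
  ∃ b ∈ S, b.isT = l ∧ ((b.row = k ∧ n = b.P) ∨ (b.row + 1 = k ∧ n = b.Q))

lemma node_P {a : Rec H} {l : Bool} (ha : a ∈ S) (hl : a.isT = l) : Node S l a.row a.P :=
  ⟨a, ha, hl, Or.inl ⟨rfl, rfl⟩⟩

lemma node_Q {a : Rec H} {l : Bool} (ha : a ∈ S) (hl : a.isT = l) :
    Node S l (a.row + 1) a.Q :=
  ⟨a, ha, hl, Or.inr ⟨rfl, rfl⟩⟩

/-- No T node is below an N node on the same edge. -/
lemma Inv.edge (hI : Inv S) {k : ℕ} {t n : Set ℕ} (ht : Node S true k t)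
    (hn : Node S false k n) : ¬ Le t n := by
  obtain ⟨a, ha, hla, ⟨rfl, rfl⟩ | ⟨hra, rfl⟩⟩ := ht <;>
    obtain ⟨b, hb, hlb, ⟨hrb, rfl⟩ | ⟨hrb, rfl⟩⟩ := hn
  · exact hI.edgeP a ha b hb hla hlb hrb.symm
  · exact hI.edgePQ a ha b hb hla hlb hrb
  · exact hI.edgeQP a ha b hb hla hlb (hra.trans hrb.symm)
  · exact hI.edgeQ a ha b hb hla hlb (by omega)

/-- Every node set of the records. -/
def nodes (S : Set (Rec H)) : Set (Set ℕ) := Rec.P '' S ∪ Rec.Q '' S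

lemma Node.mem {l : Bool} {k : ℕ} {n : Set ℕ} (h : Node S l k n) : n ∈ nodes S := by
  obtain ⟨b, hb, -, ⟨-, rfl⟩ | ⟨-, rfl⟩⟩ := h
  · exact Or.inl ⟨b, hb, rfl⟩
  · exact Or.inr ⟨b, hb, rfl⟩

/-- Fewer than continuum many node sets. -/
def Small (S : Set (Rec H)) : Prop := Cardinal.mk (nodes S) < Cardinal.continuum

lemma Small.insert (h : Small S) (C : Rec H) : Small (insert C S) := by
  unfold Small nodes at h ⊢
  have e : Rec.P '' Insert.insert C S ∪ Rec.Q '' Insert.insert C S =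
      Insert.insert C.P (Insert.insert C.Q (Rec.P '' S ∪ Rec.Q '' S)) := by
    rw [image_insert_eq, image_insert_eq, insert_union, union_insert]
  rw [e]
  exact (Cardinal.mk_insert_le).trans_lt (Cardinal.add_lt_of_lt Cardinal.aleph0_le_continuum
    ((Cardinal.mk_insert_le).trans_lt (Cardinal.add_lt_of_lt Cardinal.aleph0_le_continuum h
      (Cardinal.one_lt_aleph0.trans_le Cardinal.aleph0_le_continuum)))
    (Cardinal.one_lt_aleph0.trans_le Cardinal.aleph0_le_continuum))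

lemma Small.dual (h : Small S) : Small (Rec.dual '' S) := by
  have e : nodes (Rec.dual '' S) = compl '' nodes S := by
    simp only [nodes, image_union, image_image]; rfl
  unfold Small
  rw [e]
  exact Cardinal.mk_image_le.trans_lt h

/-- Adding a T record. -/
lemma Inv.insertT (hI : Inv S) {C : Rec H} (hT : C.isT = true)
    (anti : ∀ b ∈ S, b.row = C.row →
      ¬(Le C.P b.P ∧ Le b.Q C.Q) ∧ ¬(Le b.P C.P ∧ Le C.Q b.Q))
    (eP : ∀ n, Node S false C.row n → ¬ Le C.P n)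
    (eQ : ∀ n, Node S false (C.row + 1) n → ¬ Le C.Q n)
    (pred : ∀ a ∈ S, a.isT = true → a.row + 1 = C.row → Le a.Q C.P → C.h < a.h)
    (succ : ∀ b ∈ S, b.isT = true → C.row + 1 = b.row → Le C.Q b.P → b.h < C.h) :
    Inv (insert C S) := by
  constructor
  · rintro a (rfl | ha) b (rfl | hb) hr h₁ h₂
    · rfl
    · exact absurd ⟨h₁, h₂⟩ (anti b hb hr.symm).1
    · exact absurd ⟨h₁, h₂⟩ (anti a ha hr).2
    · exact hI.anti a ha b hb hr h₁ h₂
  · rintro a (rfl | ha) b (rfl | hb) hla hlb hr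
    · simp [hla] at hlb
    · exact eP _ (hr ▸ node_P hb hlb)
    · simp [hT] at hlb
    · exact hI.edgeP a ha b hb hla hlb hr
  · rintro a (rfl | ha) b (rfl | hb) hla hlb hr
    · simp [hla] at hlb
    · exact eQ _ (hr ▸ node_Q hb hlb)
    · simp [hT] at hlb
    · exact hI.edgeQ a ha b hb hla hlb hr
  · rintro a (rfl | ha) b (rfl | hb) hla hlb hr
    · simp [hla] at hlb
    · exact eQ _ (hr ▸ node_P hb hlb)
    · simp [hT] at hlb
    · exact hI.edgeQP a ha b hb hla hlb hr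
  · rintro a (rfl | ha) b (rfl | hb) hla hlb hr
    · simp [hla] at hlb
    · exact eP _ (hr ▸ node_Q hb hlb)
    · simp [hT] at hlb
    · exact hI.edgePQ a ha b hb hla hlb hr
  · rintro a (rfl | ha) b (rfl | hb) hla hlb hr hle
    · omega
    · exact succ b hb hlb hr hle
    · exact pred a ha hla hr hle
    · exact hI.rankT a ha b hb hla hlb hr hle
  · rintro a (rfl | ha) b (rfl | hb) hla hlb hr hle
    · simp [hT] at hla
    · simp [hT] at hla
    · simp [hT] at hlb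
    · exact hI.rankN a ha b hb hla hlb hr hle

lemma node_dual {l : Bool} {k : ℕ} {n : Set ℕ} (h : Node (Rec.dual '' S) l k n) :
    Node S (!l) k nᶜ := by
  obtain ⟨_, ⟨b, hb, rfl⟩, hl, h⟩ := h
  refine ⟨b, hb, by simp [← hl, Rec.dual], ?_⟩
  rcases h with ⟨h, rfl⟩ | ⟨h, rfl⟩
  · exact Or.inl ⟨h, compl_compl _⟩
  · exact Or.inr ⟨h, compl_compl _⟩

/-- Adding an N record. -/
lemma Inv.insertN (hI : Inv S) {C : Rec H} (hN : C.isT = false)
    (anti : ∀ b ∈ S, b.row = C.row →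
      ¬(Le C.P b.P ∧ Le b.Q C.Q) ∧ ¬(Le b.P C.P ∧ Le C.Q b.Q))
    (eP : ∀ t, Node S true C.row t → ¬ Le t C.P)
    (eQ : ∀ t, Node S true (C.row + 1) t → ¬ Le t C.Q)
    (pred : ∀ a ∈ S, a.isT = false → a.row + 1 = C.row → Le C.P a.Q → C.h < a.h)
    (succ : ∀ b ∈ S, b.isT = false → C.row + 1 = b.row → Le b.P C.Q → b.h < C.h) :
    Inv (insert C S) := by
  have hT : C.dual.isT = true := by simp [Rec.dual, hN]
  have h := hI.dual.insertT hT ?_ ?_ ?_ ?_ ?_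
  · simpa [image_insert_eq, Rec.dual_dual, dual_image_image] using h.dual
  · rintro _ ⟨b, hb, rfl⟩ hr
    simp only [Rec.dual, le_compl_iff] at hr ⊢
    exact (anti b hb hr).symm
  · intro n hn h
    exact eP nᶜ (node_dual hn) (by simpa [Rec.dual] using h.compl)
  · intro n hn h
    exact eQ nᶜ (node_dual hn) (by simpa [Rec.dual] using h.compl)
  · rintro _ ⟨a, ha, rfl⟩ hl hr h
    exact pred a ha (by simpa [Rec.dual] using hl) hr (le_compl_iff.mp h)
  · rintro _ ⟨b, hb, rfl⟩ hl hr h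
    exact succ b hb (by simpa [Rec.dual] using hl) hr (le_compl_iff.mp h)

/-- The standing facts about an initialised system. -/
structure Good (S : Set (Rec H)) : Prop where
  inv : Inv S
  small : Small S
  hasT : ∀ k, ∃ b ∈ S, b.row = k ∧ b.isT = true
  hasN : ∀ k, ∃ b ∈ S, b.row = k ∧ b.isT = false

lemma Good.dual (h : Good S) : Good (Rec.dual '' S) where
  inv := h.inv.dual
  small := h.small.dual
  hasT k := by
    obtain ⟨b, hb, hr, hl⟩ := h.hasN k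
    exact ⟨_, ⟨b, hb, rfl⟩, hr, by simp [Rec.dual, hl]⟩
  hasN k := by
    obtain ⟨b, hb, hr, hl⟩ := h.hasT k
    exact ⟨_, ⟨b, hb, rfl⟩, hr, by simp [Rec.dual, hl]⟩

lemma Good.insert (h : Good S) {C : Rec H} (hI : Inv (insert C S)) : Good (insert C S) where
  inv := hI
  small := h.small.insert C
  hasT k := let ⟨b, hb, h'⟩ := h.hasT k; ⟨b, Or.inr hb, h'⟩
  hasN k := let ⟨b, hb, h'⟩ := h.hasN k; ⟨b, Or.inr hb, h'⟩

lemma Good.t_infinite (h : Good S) {k : ℕ} {t : Set ℕ} (ht : Node S true k t) : ¬ Le t ∅ := by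
  intro hle
  obtain ⟨b, hb, rfl, hl⟩ := h.hasN k
  exact h.inv.edge ht (node_P hb hl) (hle.trans (empty_le _))

lemma Good.n_coinfinite (h : Good S) {k : ℕ} {n : Set ℕ} (hn : Node S false k n) :
    ¬ Le univ n := by
  intro hle
  obtain ⟨b, hb, rfl, hl⟩ := h.hasT k
  exact h.inv.edge (node_P hb hl) hn ((le_univ _).trans hle)

/-- The record lies below `(I, J)`. -/
def Below (b : Rec H) (I J : Set ℕ) : Prop := Le b.P I ∧ Le J b.Q

/-- The record lies above `(I, J)`. -/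
def Above (b : Rec H) (I J : Set ℕ) : Prop := Le I b.P ∧ Le b.Q J

/-- Some record of row `k` is comparable with `(I, J)`. -/
def Comparable (S : Set (Rec H)) (k : ℕ) (I J : Set ℕ) : Prop :=
  ∃ b ∈ S, b.row = k ∧ (Below b I J ∨ Above b I J)

/-- A record above or below `(I, J)` can be added. -/
lemma exists_comparable (hSp : SplitHyp) (hS : Good S) (k : ℕ) (I J : Set ℕ) (top : H)
    (htop : ∀ b ∈ S, b.h < top) (hno : ¬ Comparable S k I J) :
    ∃ C : Rec H, C.row = k ∧ C.h = top ∧ Inv (insert C S) ∧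
      (Below C I J ∨ Above C I J) := by
  by_cases hn : ∃ n, Node S false k n ∧ Le I n
  · obtain ⟨n, hn, hIn⟩ := hn
    obtain ⟨P, hIP, -, hP₁, hP₂⟩ := exists_generic hSp (le_univ I) (nodes S) hS.small
    obtain ⟨Q, -, hQJ, hQ₁, hQ₂⟩ := exists_generic hSp (empty_le J) (nodes S) hS.small
    have anti : ∀ b ∈ S, b.row = k →
        ¬(Le P b.P ∧ Le b.Q Q) ∧ ¬(Le b.P P ∧ Le Q b.Q) := by
      intro b hb hr
      refine ⟨fun ⟨h₁, h₂⟩ => ?_, fun ⟨h₁, h₂⟩ => ?_⟩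
      · cases hl : b.isT
        · exact hS.n_coinfinite (node_P hb hl) (hP₂ _ (node_P hb hl).mem h₁)
        · exact hS.t_infinite (node_Q hb hl) (hQ₁ _ (node_Q hb hl).mem h₂)
      · exact hno ⟨b, hb, hr, Or.inl
          ⟨hP₁ _ (node_P (l := b.isT) hb rfl).mem h₁, hQ₂ _ (node_Q (l := b.isT) hb rfl).mem h₂⟩⟩
    by_cases hn' : ∃ n', Node S false (k + 1) n' ∧ Le J n'
    · refine ⟨⟨k, P, Q, false, top⟩, rfl, rfl,
        hS.inv.insertN rfl anti ?_ ?_ ?_ ?_, Or.inr ⟨hIP, hQJ⟩⟩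
      · exact fun t ht h => hS.inv.edge ht hn ((hP₁ _ ht.mem h).trans hIn)
      · exact fun t ht h => hS.t_infinite ht (hQ₁ _ ht.mem h)
      · intro a ha hl hr h
        have := node_Q ha hl
        exact absurd (hP₂ _ this.mem h) (hS.n_coinfinite this)
      · exact fun b hb _ _ _ => htop b hb
    · refine ⟨⟨k, P, Q, true, top⟩, rfl, rfl,
        hS.inv.insertT rfl anti ?_ ?_ ?_ ?_, Or.inr ⟨hIP, hQJ⟩⟩
      · exact fun m hm h => hS.n_coinfinite hm (hP₂ _ hm.mem h)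
      · exact fun m hm h => hn' ⟨m, hm, hQ₂ _ hm.mem h⟩
      · intro a ha hl hr h
        have hr : a.row + 1 = k := hr
        exact absurd ((hP₁ _ (node_Q ha hl).mem h).trans hIn)
          (hS.inv.edge (hr ▸ node_Q ha hl) hn)
      · exact fun b hb _ _ _ => htop b hb
  · obtain ⟨P, -, hPI, hP₁, hP₂⟩ := exists_generic hSp (empty_le I) (nodes S) hS.small
    obtain ⟨Q, hJQ, -, hQ₁, hQ₂⟩ := exists_generic hSp (le_univ J) (nodes S) hS.small
    have anti : ∀ b ∈ S, b.row = k →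
        ¬(Le P b.P ∧ Le b.Q Q) ∧ ¬(Le b.P P ∧ Le Q b.Q) := by
      intro b hb hr
      refine ⟨fun ⟨h₁, h₂⟩ => ?_, fun ⟨h₁, h₂⟩ => ?_⟩
      · exact hno ⟨b, hb, hr, Or.inr
          ⟨hP₂ _ (node_P (l := b.isT) hb rfl).mem h₁, hQ₁ _ (node_Q (l := b.isT) hb rfl).mem h₂⟩⟩
      · cases hl : b.isT
        · exact hS.n_coinfinite (node_Q hb hl) (hQ₂ _ (node_Q hb hl).mem h₂)
        · exact hS.t_infinite (node_P hb hl) (hP₁ _ (node_P hb hl).mem h₁)
    refine ⟨⟨k, P, Q, true, top⟩, rfl, rfl,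
      hS.inv.insertT rfl anti ?_ ?_ ?_ ?_, Or.inl ⟨hPI, hJQ⟩⟩
    · exact fun m hm h => hn ⟨m, hm, hP₂ _ hm.mem h⟩
    · exact fun m hm h => hS.n_coinfinite hm (hQ₂ _ hm.mem h)
    · intro a ha hl hr h
      have := node_Q ha hl
      exact absurd (hP₁ _ this.mem h) (hS.t_infinite this)
    · exact fun b hb _ _ _ => htop b hb

/-- A record can be put between an upper record of `(I₁, J₂)` and a lower one of `(X₁, Y₂)`. -/
lemma exists_between (hSp : SplitHyp) (hS : Good S) {k : ℕ} {I₁ X₁ Y₂ J₂ : Set ℕ}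
    (hIX : Le I₁ X₁) (hYJ : Le Y₂ J₂) (top : H) (htop : ∀ b ∈ S, b.h < top)
    {B B' : Rec H} (hB : B ∈ S) (hBr : B.row = k) (hBI : Above B I₁ J₂)
    (hB' : B' ∈ S) (hB'r : B'.row = k) (hB'X : Below B' X₁ Y₂)
    (hlo : ∀ b ∈ S, b.row = k → ¬ Below b I₁ J₂)
    (hhi : ∀ b ∈ S, b.row = k → ¬ Above b X₁ Y₂) :
    ∃ C : Rec H, C.row = k ∧ C.h ≤ top ∧ Inv (insert C S) ∧
      Le I₁ C.P ∧ Le C.P X₁ ∧ Le Y₂ C.Q ∧ Le C.Q J₂ := by
  obtain ⟨P, hIP, hPX, hP₁, hP₂⟩ := exists_generic hSp hIX (nodes S) hS.small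
  obtain ⟨Q, hYQ, hQJ, hQ₁, hQ₂⟩ := exists_generic hSp hYJ (nodes S) hS.small
  have hBtop : ∀ b ∈ S, b.h ≤ top := fun b hb => (htop b hb).le
  have anti : ∀ b ∈ S, b.row = k →
      ¬(Le P b.P ∧ Le b.Q Q) ∧ ¬(Le b.P P ∧ Le Q b.Q) := by
    intro b hb hr
    have m₁ := (node_P (l := b.isT) hb rfl).mem
    have m₂ := (node_Q (l := b.isT) hb rfl).mem
    exact ⟨fun ⟨h₁, h₂⟩ => hhi b hb hr ⟨hP₂ _ m₁ h₁, hQ₁ _ m₂ h₂⟩,
      fun ⟨h₁, h₂⟩ => hlo b hb hr ⟨hP₁ _ m₁ h₁, hQ₂ _ m₂ h₂⟩⟩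
  have nB : ∀ {l}, B.isT = l → Node S l k B.P ∧ Node S l (k + 1) B.Q :=
    fun h => ⟨hBr ▸ node_P hB h, hBr ▸ node_Q hB h⟩
  have nB' : ∀ {l}, B'.isT = l → Node S l k B'.P ∧ Node S l (k + 1) B'.Q :=
    fun h => ⟨hB'r ▸ node_P hB' h, hB'r ▸ node_Q hB' h⟩
  -- the label T can fail only through these two, and likewise N
  have eTP : ∀ n, Node S false k n → Le P n → Le X₁ n ∧ B'.isT = false := fun n hn h => by
    refine ⟨hP₂ _ hn.mem h, ?_⟩
    cases hl : B'.isT with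
    | false => rfl
    | true => exact absurd (hB'X.1.trans (hP₂ _ hn.mem h)) (hS.inv.edge (nB' hl).1 hn)
  have eTQ : ∀ n, Node S false (k + 1) n → Le Q n → Le J₂ n ∧ B.isT = false := fun n hn h => by
    refine ⟨hQ₂ _ hn.mem h, ?_⟩
    cases hl : B.isT with
    | false => rfl
    | true => exact absurd (hBI.2.trans (hQ₂ _ hn.mem h)) (hS.inv.edge (nB hl).2 hn)
  have eNP : ∀ t, Node S true k t → Le t P → Le t I₁ ∧ B.isT = true := fun t ht h => by
    refine ⟨hP₁ _ ht.mem h, ?_⟩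
    cases hl : B.isT with
    | true => rfl
    | false => exact absurd ((hP₁ _ ht.mem h).trans hBI.1) (hS.inv.edge ht (nB hl).1)
  have eNQ : ∀ t, Node S true (k + 1) t → Le t Q → Le t Y₂ ∧ B'.isT = true := fun t ht h => by
    refine ⟨hQ₁ _ ht.mem h, ?_⟩
    cases hl : B'.isT with
    | true => rfl
    | false => exact absurd ((hQ₁ _ ht.mem h).trans hB'X.2) (hS.inv.edge ht (nB' hl).2)
  -- copying the rank of `B`, with label T, and of `B'`, with label N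
  have copyT : B.isT = true → (∀ n, Node S false k n → ¬ Le P n) →
      Inv (insert ⟨k, P, Q, true, B.h⟩ S) := fun hl hok => by
    refine hS.inv.insertT rfl anti hok ?_ ?_ ?_
    · exact fun n hn h => by simp [hl] at eTQ; exact eTQ n hn h
    · exact fun a ha hla hr h => hS.inv.rankT a ha B hB hla hl (hr.trans hBr.symm)
        ((hP₁ _ (node_Q ha hla).mem h).trans hBI.1)
    · exact fun b hb hlb hr h => hS.inv.rankT B hB b hb hl hlb
        (by rw [hBr]; exact hr) (hBI.2.trans (hQ₂ _ (node_P hb hlb).mem h))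
  have copyN : B'.isT = false → (∀ t, Node S true k t → ¬ Le t P) →
      Inv (insert ⟨k, P, Q, false, B'.h⟩ S) := fun hl hok => by
    refine hS.inv.insertN rfl anti hok ?_ ?_ ?_
    · exact fun t ht h => by simp [hl] at eNQ; exact eNQ t ht h
    · exact fun a ha hla hr h => hS.inv.rankN a ha B' hB' hla hl (hr.trans hB'r.symm)
        (hB'X.1.trans (hP₂ _ (node_Q ha hla).mem h))
    · exact fun b hb hlb hr h => hS.inv.rankN B' hB' b hb hl hlb
        (by rw [hB'r]; exact hr) ((hQ₁ _ (node_P hb hlb).mem h).trans hB'X.2)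
  rcases hlB : B.isT with _ | _ <;> rcases hlB' : B'.isT with _ | _
  · -- N, N
    exact ⟨⟨k, P, Q, false, B'.h⟩, rfl, hBtop B' hB', copyN hlB' fun t ht h => by simp [hlB] at eNP; exact eNP t ht h,
      hIP, hPX, hYQ, hQJ⟩
  · -- N, T: no predecessors
    by_cases hT : ∀ n, Node S false (k + 1) n → ¬ Le Q n
    · refine ⟨⟨k, P, Q, true, top⟩, rfl, le_rfl, hS.inv.insertT rfl anti ?_ hT ?_ ?_,
        hIP, hPX, hYQ, hQJ⟩
      · exact fun n hn h => by simpa [hlB'] using (eTP n hn h).2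
      · intro a ha hla hr h
        have hr : a.row + 1 = k := hr
        exact absurd ((hP₁ _ (node_Q ha hla).mem h).trans hBI.1)
          (hS.inv.edge (hr ▸ node_Q ha hla) (nB hlB).1)
      · exact fun b hb _ _ _ => htop b hb
    · push Not at hT
      obtain ⟨n, hn, hQn⟩ := hT
      refine ⟨⟨k, P, Q, false, top⟩, rfl, le_rfl, hS.inv.insertN rfl anti ?_ ?_ ?_ ?_,
        hIP, hPX, hYQ, hQJ⟩
      · exact fun t ht h => by simpa [hlB] using (eNP t ht h).2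
      · exact fun t ht h => hS.inv.edge ht hn
          (((eNQ t ht h).1.trans hYJ).trans (eTQ n hn hQn).1)
      · intro a ha hla hr h
        have hr : a.row + 1 = k := hr
        exact absurd (hB'X.1.trans (hP₂ _ (node_Q ha hla).mem h))
          (hS.inv.edge (nB' hlB').1 (hr ▸ node_Q ha hla))
      · exact fun b hb _ _ _ => htop b hb
  · -- T, N
    by_cases hT : ∀ n, Node S false k n → ¬ Le P n
    · exact ⟨⟨k, P, Q, true, B.h⟩, rfl, hBtop B hB, copyT hlB hT, hIP, hPX, hYQ, hQJ⟩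
    · push Not at hT
      obtain ⟨n, hn, hPn⟩ := hT
      exact ⟨⟨k, P, Q, false, B'.h⟩, rfl, hBtop B' hB', copyN hlB' fun t ht h => hS.inv.edge ht hn
        (((eNP t ht h).1.trans hIX).trans (eTP n hn hPn).1), hIP, hPX, hYQ, hQJ⟩
  · -- T, T
    exact ⟨⟨k, P, Q, true, B.h⟩, rfl, hBtop B hB, copyT hlB fun n hn h => by simpa [hlB'] using (eTP n hn h).2,
      hIP, hPX, hYQ, hQJ⟩

/-- Making `(I, J)` comparable with a record of row `k`. -/
lemma exists_half (hSp : SplitHyp) (hS : Good S) (k : ℕ) (I J : Set ℕ) (top : H)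
    (htop : ∀ b ∈ S, b.h < top) :
    ∃ S' : Set (Rec H), S ⊆ S' ∧ (S' \ S).Finite ∧ Good S' ∧ (∀ b ∈ S', b.h ≤ top) ∧
      Comparable S' k I J := by
  by_cases h : Comparable S k I J
  · exact ⟨S, subset_rfl, by simp, hS, fun b hb => (htop b hb).le, h⟩
  obtain ⟨C, hr, hh, hI, hc⟩ := exists_comparable hSp hS k I J top htop h
  refine ⟨insert C S, subset_insert C S, (finite_singleton C).subset ?_, hS.insert hI, ?_,
    C, mem_insert C S, hr, hc⟩
  · rintro x ⟨rfl | hx, hn⟩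
    · rfl
    · exact absurd hx hn
  · rintro b (rfl | hb)
    · exact hh.le
    · exact (htop b hb).le

/-- One step of the recursion: the interval gets decided by finitely many new records. -/
theorem exists_step (hSp : SplitHyp) (hS : Good S) (k : ℕ) {I₁ X₁ Y₂ J₂ : Set ℕ}
    (hIX : Le I₁ X₁) (hYJ : Le Y₂ J₂) {t₀ t₁ t₂ : H} (h₀₁ : t₀ < t₁) (h₁₂ : t₁ < t₂)
    (htop : ∀ b ∈ S, b.h < t₀) :
    ∃ S' : Set (Rec H), S ⊆ S' ∧ (S' \ S).Finite ∧ Good S' ∧ (∀ b ∈ S', b.h ≤ t₂) ∧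
      Decided S' k I₁ X₁ Y₂ J₂ := by
  obtain ⟨S₁, hS₁, hf₁, hG₁, hb₁, B, hB, hBr, hBc⟩ := exists_half hSp hS k I₁ J₂ t₀ htop
  obtain ⟨T, hT, hfT, hGT, hbT, B', hB', hB'r, hB'c⟩ :=
    exists_half hSp hG₁.dual k X₁ᶜ Y₂ᶜ t₁
      (by rintro _ ⟨b, hb, rfl⟩; exact (hb₁ b hb).trans_lt h₀₁)
  set S₂ := Rec.dual '' T
  have h₁₂' : S₁ ⊆ S₂ := fun b hb => ⟨b.dual, hT ⟨b, hb, rfl⟩, b.dual_dual⟩
  have hG₂ : Good S₂ := hGT.dual
  have hf₂ : (S₂ \ S).Finite := by
    refine (hf₁.union (hfT.image Rec.dual)).subset ?_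
    rintro x ⟨⟨y, hy, rfl⟩, hx⟩
    by_cases h : y.dual ∈ S₁
    · exact Or.inl ⟨h, hx⟩
    · refine Or.inr ⟨y, ⟨hy, ?_⟩, rfl⟩
      rintro ⟨z, hz, rfl⟩
      exact h (by rwa [z.dual_dual])
  have hb₂ : ∀ b ∈ S₂, b.h ≤ t₁ := by
    rintro _ ⟨y, hy, rfl⟩; exact hbT y hy
  have hb₂' : ∀ b ∈ S₂, b.h < t₂ := fun b hb => (hb₂ b hb).trans_lt h₁₂
  have hC : ∃ C ∈ S₂, C.row = k ∧ (Below C X₁ Y₂ ∨ Above C X₁ Y₂) := by
    refine ⟨B'.dual, ⟨B', hB', rfl⟩, hB'r, hB'c.symm.imp ?_ ?_⟩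
    · exact fun ⟨h₁, h₂⟩ => ⟨by simpa [Rec.dual] using h₁.compl, by simpa [Rec.dual] using h₂.compl⟩
    · exact fun ⟨h₁, h₂⟩ => ⟨by simpa [Rec.dual] using h₁.compl, by simpa [Rec.dual] using h₂.compl⟩
  by_cases hd : Decided S₂ k I₁ X₁ Y₂ J₂
  · exact ⟨S₂, hS₁.trans h₁₂', hf₂, hG₂, fun b hb => (hb₂' b hb).le, hd⟩
  have hlo : ∀ b ∈ S₂, b.row = k → ¬ Below b I₁ J₂ := fun b hb hr h =>
    hd ⟨b, hb, hr, Or.inl h⟩
  have hhi : ∀ b ∈ S₂, b.row = k → ¬ Above b X₁ Y₂ := fun b hb hr h =>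
    hd ⟨b, hb, hr, Or.inr (Or.inl h)⟩
  obtain ⟨C, hC, hCr, hCc⟩ := hC
  have hBI := hBc.resolve_left (hlo B (h₁₂' hB) hBr)
  have hCX := hCc.resolve_right (hhi C hC hCr)
  obtain ⟨D, hDr, hDh, hDI, hD⟩ := exists_between hSp hG₂ hIX hYJ t₂ hb₂' (h₁₂' hB) hBr hBI
    hC hCr hCX hlo hhi
  refine ⟨insert D S₂, (hS₁.trans h₁₂').trans (subset_insert D S₂), ?_, hG₂.insert hDI, ?_,
    D, mem_insert D S₂, hDr, Or.inr (Or.inr hD)⟩
  · exact (hf₂.insert D).subset fun x hx => hx.1.imp id fun h => ⟨h, hx.2⟩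
  · rintro b (rfl | hb)
    · exact hDh
    · exact (hb₂' b hb).le

end Vale.Agent.P068.Wild
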